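import Mathlib

namespace Vale.Agent.P249

open Finset Real

/-- The truncation levels. -/
noncomputable def tl (l : ℕ) : ℝ := 2 / 2 ^ l

lemma tl_pos (l : ℕ) : 0 < tl l := by unfold tl; positivity

lemma tl_zero : tl 0 = 2 := by simp [tl]

lemma tl_succ (l : ℕ) : tl (l + 1) = tl l / 2 := by unfold tl; rw [pow_succ]; field_simp

lemma tl_anti {a b : ℕ} (h : a ≤ b) : tl b ≤ tl a := by
  unfold tl
  gcongr
  norm_num

lemma exists_trunc {X : Type} [MetricSpace X] (a M : X → ℝ)
    (h : ∀ x y, |a x - a y| ≤ dist x y * (M x + M y)) :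
    ∃ g : ℕ → X → ℝ, (∀ l x y, |g l x - g l y| ≤ tl l * dist x y) ∧
      ∀ l x, 2 * M x ≤ tl l → g l x = a x := by
  have : ∀ l : ℕ, ∃ g : X → ℝ, (∀ x y, |g x - g y| ≤ tl l * dist x y) ∧
      ∀ x, 2 * M x ≤ tl l → g x = a x := by
    intro l
    have h1 : LipschitzOnWith ⟨tl l, (tl_pos l).le⟩ a {x | 2 * M x ≤ tl l} := by
      apply LipschitzOnWith.of_dist_le_mul
      intro x hx y hy
      rw [Real.dist_eq]
      refine (h x y).trans ?_
      have hx' : 2 * M x ≤ tl l := hx
      have hy' : 2 * M y ≤ tl l := hy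
      change _ ≤ tl l * dist x y
      nlinarith [dist_nonneg (x := x) (y := y)]
    obtain ⟨g, hg, hg'⟩ := h1.extend_real
    refine ⟨g, fun x y => ?_, fun x hx => (hg' hx).symm⟩
    have := hg.dist_le_mul x y
    rwa [Real.dist_eq] at this
  choose g hg hg' using this
  exact ⟨g, hg, hg'⟩

/-- The levels used in window `j` with shift `s`. -/
def lev (J T s j l : ℕ) : ℕ := if j = 0 then 0 else (j - 1) * (J * T) + s * J + l

/-- Window averages. -/
noncomputable def win (J T : ℕ) (g : ℕ → ℝ) (s j : ℕ) : ℝ := (∑ l ∈ range J, g (lev J T s j l)) / J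

lemma lev_succ (J T s j l : ℕ) : lev J T s (j + 1) l = j * (J * T) + s * J + l := by
  simp [lev]

lemma lev_mono (J T s j l : ℕ) : lev J T s j l ≤ lev J T s (j + 1) l := by
  rcases j with _ | j
  · simp [lev]
  · rw [lev_succ, lev_succ]
    have : j * (J * T) ≤ (j + 1) * (J * T) := Nat.mul_le_mul_right _ (Nat.le_succ j)
    omega

lemma lev_ge (J T s j l : ℕ) : (j - 1) * (J * T) ≤ lev J T s j l := by
  rcases j with _ | j
  · simp
  · rw [lev_succ, Nat.add_sub_cancel]; omega

lemma shift_lt {J T s l : ℕ} (hs : s < T) (hl : l < J) : s * J + l < J * T := by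
  have : (s + 1) * J ≤ T * J := Nat.mul_le_mul_right _ hs
  nlinarith

lemma lev_le {J T s l : ℕ} (j : ℕ) (hs : s < T) (hl : l < J) : lev J T s j l ≤ j * (J * T) := by
  rcases j with _ | j
  · simp [lev]
  · rw [lev_succ]
    have := shift_lt hs hl
    nlinarith

lemma abs_add_rpow_le {x y η p : ℝ} (hη : 0 < η) (hp : 0 < p) :
    |x + y| ^ p ≤ (1 + η) ^ p * |x| ^ p + (1 + 1 / η) ^ p * |y| ^ p := by
  have h1 : 0 ≤ (1 + η) ^ p * |x| ^ p := by positivity
  have h2 : 0 ≤ (1 + 1 / η) ^ p * |y| ^ p := by positivity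
  have h0 := abs_add_le x y
  rcases le_total |y| (η * |x|) with h | h
  · have : |x + y| ^ p ≤ ((1 + η) * |x|) ^ p :=
      rpow_le_rpow (abs_nonneg _) (by linarith) hp.le
    rw [mul_rpow (by positivity) (abs_nonneg _)] at this
    linarith
  · have h3 : |x| ≤ 1 / η * |y| := by
      rw [one_div, ← div_eq_inv_mul, le_div_iff₀ hη]; linarith
    have : |x + y| ^ p ≤ ((1 + 1 / η) * |y|) ^ p :=
      rpow_le_rpow (abs_nonneg _) (by linarith) hp.le
    rw [mul_rpow (by positivity) (abs_nonneg _)] at this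
    linarith

lemma sum_rpow_le_of_sum_le {ι : Type*} (s : Finset ι) (x : ι → ℝ) (hx : ∀ i ∈ s, 0 ≤ x i)
    {S p : ℝ} (hp : 1 ≤ p) (hS : ∑ i ∈ s, x i ≤ S) : ∑ i ∈ s, x i ^ p ≤ S ^ p := by
  have hS0 : 0 ≤ S := (sum_nonneg hx).trans hS
  have hxS : ∀ i ∈ s, x i ≤ S := fun i hi => (single_le_sum hx hi).trans hS
  have h1 : ∀ u : ℝ, 0 ≤ u → u ^ p = u * u ^ (p - 1) := by
    intro u hu
    have : p = 1 + (p - 1) := by ring
    conv_lhs => rw [this]
    rw [rpow_add' hu (by linarith), rpow_one]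
  calc ∑ i ∈ s, x i ^ p ≤ ∑ i ∈ s, x i * S ^ (p - 1) := by
        apply sum_le_sum
        intro i hi
        rw [h1 _ (hx i hi)]
        exact mul_le_mul_of_nonneg_left (rpow_le_rpow (hx i hi) (hxS i hi) (by linarith)) (hx i hi)
    _ ≤ S * S ^ (p - 1) := by
        rw [← sum_mul]
        exact mul_le_mul_of_nonneg_right hS (rpow_nonneg hS0 _)
    _ = S ^ p := (h1 S hS0).symm

lemma sum_bad_le (m : ℝ) (N : ℕ) :
    ∑ l ∈ range N, (if m ≤ tl l then 0 else tl l) + 2 * min m (tl N) ≤ 2 * m := by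
  induction N with
  | zero => simp
  | succ N ih =>
    rw [sum_range_succ, tl_succ]
    have := tl_pos N
    by_cases h : m ≤ tl N
    · rw [if_pos h]
      rw [min_eq_left h] at ih
      linarith [min_le_left m (tl N / 2)]
    · rw [if_neg h]
      rw [min_eq_right (le_of_not_ge h)] at ih
      linarith [min_le_right m (tl N / 2)]

lemma sum_windows_le {J T s : ℕ} (hs : s < T) (f : ℕ → ℝ) (hf : ∀ l, 0 ≤ f l) (K : ℕ) :
    ∑ j ∈ range K, ∑ l ∈ range J, f (lev J T s (j + 1) l) ≤ ∑ l ∈ range (K * (J * T)), f l := by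
  induction K with
  | zero => simp
  | succ K ih =>
    rw [sum_range_succ, Nat.succ_mul, sum_range_add]
    refine add_le_add ih ?_
    have h1 : s * J + J ≤ J * T := by
      have : (s + 1) * J ≤ T * J := Nat.mul_le_mul_right _ hs
      nlinarith
    calc ∑ l ∈ range J, f (lev J T s (K + 1) l)
        = ∑ l ∈ range J, f (K * (J * T) + (s * J + l)) := by
          simp only [lev_succ, add_assoc]
      _ ≤ ∑ l ∈ range (s * J + J), f (K * (J * T) + l) := by
          rw [sum_range_add]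
          have : 0 ≤ ∑ l ∈ range (s * J), f (K * (J * T) + l) := sum_nonneg fun _ _ => hf _
          linarith
      _ ≤ _ := sum_le_sum_of_subset_of_nonneg (range_mono h1) fun _ _ _ => hf _

section Window

variable {J T : ℕ} {g : ℕ → ℝ} {Z m d : ℝ}

/-- The fraction of good levels. -/
noncomputable def lam (J T : ℕ) (m : ℝ) (s j : ℕ) : ℝ :=
  win J T (fun l => if m ≤ tl l then 1 else 0) s j

/-- The error part. -/
noncomputable def err (J T : ℕ) (g : ℕ → ℝ) (m : ℝ) (s j : ℕ) : ℝ :=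
  win J T (fun l => if m ≤ tl l then 0 else g l) s j

lemma win_eq (hg : ∀ l, m ≤ tl l → g l = Z) (s j : ℕ) :
    win J T g s j = lam J T m s j * Z + err J T g m s j := by
  unfold lam err win
  rw [div_mul_eq_mul_div, ← add_div, sum_mul, ← sum_add_distrib]
  congr 1
  apply sum_congr rfl
  intro l _
  beta_reduce
  split_ifs with h
  · rw [hg _ h]; simp
  · simp

lemma lam_anti (s j : ℕ) : lam J T m s (j + 1) ≤ lam J T m s j := by
  unfold lam win
  gcongr with l hl
  beta_reduce
  by_cases h : m ≤ tl (lev J T s (j + 1) l)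
  · rw [if_pos h, if_pos (h.trans (tl_anti (lev_mono _ _ _ _ _)))]
  · rw [if_neg h]; split_ifs <;> norm_num

lemma lam_nonneg (s j : ℕ) : 0 ≤ lam J T m s j := by
  unfold lam win
  apply div_nonneg _ (Nat.cast_nonneg _)
  apply sum_nonneg
  intro l _
  beta_reduce
  split_ifs <;> norm_num

lemma lam_eq_one (hJ : 0 < J) {s j : ℕ} (h : ∀ l < J, m ≤ tl (lev J T s j l)) :
    lam J T m s j = 1 := by
  unfold lam win
  rw [sum_congr rfl (g := fun _ => (1 : ℝ)) fun l hl => if_pos (h l (mem_range.1 hl))]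
  have : (J : ℝ) ≠ 0 := by positivity
  simp [this]

lemma lam_eq_zero {s j : ℕ} (h : ∀ l < J, ¬ m ≤ tl (lev J T s j l)) :
    lam J T m s j = 0 := by
  unfold lam win
  rw [sum_eq_zero fun l hl => if_neg (h l (mem_range.1 hl)), zero_div]

lemma sum_err_le (hJ : 0 < J) (hd : 0 ≤ d) (hm0 : 0 ≤ m) (hm : m ≤ 2)
    (hg : ∀ l, |g l| ≤ tl l * d) {s : ℕ} (hs : s < T) (K : ℕ) :
    ∑ j ∈ range K, |err J T g m s j - err J T g m s (j + 1)| ≤ 4 * m * d / J := by
  have hJ' : (0 : ℝ) < J := by exact_mod_cast hJ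
  let f : ℕ → ℝ := fun l => if m ≤ tl l then 0 else tl l
  have hf : ∀ l, 0 ≤ f l := fun l => by
    simp only [f]; split_ifs; exacts [le_rfl, (tl_pos l).le]
  have h1 : ∀ j, |err J T g m s j| ≤ (∑ l ∈ range J, f (lev J T s j l)) * (d / J) := by
    intro j
    unfold err win
    rw [abs_div, abs_of_pos hJ', ← mul_div_assoc]
    gcongr
    rw [sum_mul]
    refine (abs_sum_le_sum_abs _ _).trans (sum_le_sum fun l _ => ?_)
    simp only [f]
    split_ifs
    · simp
    · exact hg _
  have h0 : err J T g m s 0 = 0 := by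
    unfold err win
    rw [sum_eq_zero, zero_div]
    intro l _
    beta_reduce
    rw [if_pos]
    simpa [lev, tl_zero] using hm
  have h2 : ∑ j ∈ range K, |err J T g m s (j + 1)| ≤ 2 * m * (d / J) := by
    refine (sum_le_sum fun j _ => h1 (j + 1)).trans ?_
    rw [← sum_mul]
    apply mul_le_mul_of_nonneg_right _ (by positivity)
    refine (sum_windows_le hs f hf K).trans ?_
    have h3 := sum_bad_le m (K * (J * T))
    have h4 : 0 ≤ min m (tl (K * (J * T))) := le_min hm0 (tl_pos _).le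
    simp only [f]
    linarith
  have h3 : ∑ j ∈ range K, |err J T g m s j| ≤ ∑ j ∈ range K, |err J T g m s (j + 1)| := by
    have h4 := sum_range_succ (fun j => |err J T g m s j|) K
    have h5 := sum_range_succ' (fun j => |err J T g m s j|) K
    rw [h0, abs_zero] at h5
    have := abs_nonneg (err J T g m s K)
    linarith
  calc _ ≤ ∑ j ∈ range K, (|err J T g m s j| + |err J T g m s (j + 1)|) :=
        sum_le_sum fun j _ => abs_sub _ _
    _ ≤ 2 * m * (d / J) + 2 * m * (d / J) := by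
        rw [sum_add_distrib]; linarith
    _ = _ := by ring

lemma win_upper (hJ : 0 < J) (hd : 0 ≤ d) (hm0 : 0 ≤ m) (hm : m ≤ 2)
    (hg : ∀ l, |g l| ≤ tl l * d) (hg' : ∀ l, m ≤ tl l → g l = Z) {s : ℕ} (hs : s < T) (K : ℕ)
    {η p : ℝ} (hη : 0 < η) (hp : 1 ≤ p) :
    ∑ j ∈ range K, |win J T g s j - win J T g s (j + 1)| ^ p ≤
      (1 + η) ^ p * |Z| ^ p + (1 + 1 / η) ^ p * (4 * m * d / J) ^ p := by
  have hp0 : 0 < p := by linarith
  have h1 : ∀ j, |win J T g s j - win J T g s (j + 1)| ^ p ≤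
      (1 + η) ^ p * |(lam J T m s j - lam J T m s (j + 1)) * Z| ^ p +
      (1 + 1 / η) ^ p * |err J T g m s j - err J T g m s (j + 1)| ^ p := by
    intro j
    refine le_trans (le_of_eq ?_) (abs_add_rpow_le hη hp0)
    rw [win_eq hg', win_eq hg']
    congr 2
    ring
  refine (sum_le_sum fun j _ => h1 j).trans ?_
  rw [sum_add_distrib, ← mul_sum, ← mul_sum]
  gcongr
  · apply sum_rpow_le_of_sum_le _ _ (fun _ _ => abs_nonneg _) hp
    have h2 : ∀ j, |(lam J T m s j - lam J T m s (j + 1)) * Z| =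
        (lam J T m s j - lam J T m s (j + 1)) * |Z| := by
      intro j
      rw [abs_mul, abs_of_nonneg (sub_nonneg.2 (lam_anti s j))]
    simp only [h2]
    rw [← sum_mul, sum_range_sub', lam_eq_one hJ (fun l _ => by simpa [lev, tl_zero] using hm)]
    have := lam_nonneg (J := J) (T := T) (m := m) s K
    nlinarith [abs_nonneg Z]
  · exact sum_rpow_le_of_sum_le _ _ (fun _ _ => abs_nonneg _) hp (sum_err_le hJ hd hm0 hm hg hs K)

lemma win_lower (hJ : 0 < J) (hd : 0 ≤ d) (hm0 : 0 ≤ m) (hm : m ≤ 2)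
    (hg : ∀ l, |g l| ≤ tl l * d) (hg' : ∀ l, m ≤ tl l → g l = Z) (K : ℕ)
    (hK : tl (K * (J * T)) < m) {η p : ℝ} (hη : 0 < η) (hp : 1 ≤ p) :
    ((T : ℝ) - 1) * |Z| ^ p ≤ ∑ s ∈ range T, ((1 + η) ^ p *
      ∑ j ∈ range (K + 1), |win J T g s j - win J T g s (j + 1)| ^ p +
      (1 + 1 / η) ^ p * (4 * m * d / J) ^ p) := by
  classical
  have hp0 : 0 < p := by linarith
  have hex : ∃ l, tl l < m := ⟨_, hK⟩
  set L := Nat.find hex with hL
  have hL1 : tl L < m := Nat.find_spec hex
  have hL2 : ∀ l < L, m ≤ tl l := fun l hl => not_lt.1 (Nat.find_min hex hl)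
  have hmain : ∀ s ∈ (range T).erase (L % (J * T) / J), |Z| ^ p ≤ (1 + η) ^ p *
      ∑ j ∈ range (K + 1), |win J T g s j - win J T g s (j + 1)| ^ p +
      (1 + 1 / η) ^ p * (4 * m * d / J) ^ p := by
    intro s hs
    have hsT : s < T := mem_range.1 (mem_of_mem_erase hs)
    have hsne := ne_of_mem_erase hs
    have hdich : ∀ j, (∀ l < J, m ≤ tl (lev J T s (j + 1) l)) ∨
        ∀ l < J, ¬ m ≤ tl (lev J T s (j + 1) l) := by
      intro j
      simp only [lev_succ]
      by_cases h1 : j * (J * T) + s * J + J ≤ L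
      · left; intro l hl; exact hL2 _ (by omega)
      by_cases h2 : L < j * (J * T) + s * J
      · right; intro l _
        exact not_le.2 (lt_of_le_of_lt (tl_anti (by omega)) hL1)
      exfalso
      apply hsne
      obtain ⟨r, hr⟩ : ∃ r, L = j * (J * T) + (s * J + r) := ⟨L - (j * (J * T) + s * J), by omega⟩
      have hrJ : r < J := by omega
      rw [hr, Nat.mul_add_mod_self_right, Nat.mod_eq_of_lt (shift_lt hsT hrJ), mul_comm,
        Nat.mul_add_div hJ, Nat.div_eq_of_lt hrJ, add_zero]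
    have hfind : ∀ n, ¬ (∀ l < J, m ≤ tl (lev J T s n l)) → ∃ j < n,
        (∀ l < J, m ≤ tl (lev J T s j l)) ∧ ¬ (∀ l < J, m ≤ tl (lev J T s (j + 1) l)) := by
      intro n
      induction n with
      | zero =>
        intro h
        exact absurd (fun l _ => by simpa [lev, tl_zero] using hm) h
      | succ n ih =>
        intro h
        by_cases h' : ∀ l < J, m ≤ tl (lev J T s n l)
        · exact ⟨n, Nat.lt_succ_self n, h', h⟩
        · obtain ⟨j, hj, hj'⟩ := ih h'
          exact ⟨j, by omega, hj'⟩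
    obtain ⟨j, hj, hj1, hj2⟩ := hfind (K + 1) (by
      intro h
      have h1 := h 0 hJ
      have h2 := tl_anti (lev_ge J T s (K + 1) 0)
      rw [Nat.add_sub_cancel] at h2
      linarith)
    have hj3 := (hdich j).resolve_left hj2
    have h1 : Z = (win J T g s j - win J T g s (j + 1)) +
        -(err J T g m s j - err J T g m s (j + 1)) := by
      rw [win_eq hg', win_eq hg', lam_eq_one hJ hj1, lam_eq_zero hj3]; ring
    have h2 := abs_add_rpow_le (x := win J T g s j - win J T g s (j + 1))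
      (y := -(err J T g m s j - err J T g m s (j + 1))) hη hp0
    rw [← h1, abs_neg] at h2
    refine h2.trans ?_
    gcongr
    · exact single_le_sum (f := fun j => |win J T g s j - win J T g s (j + 1)| ^ p)
        (fun _ _ => by positivity) (mem_range.2 hj)
    · exact (single_le_sum (f := fun j => |err J T g m s j - err J T g m s (j + 1)|)
        (fun _ _ => abs_nonneg _) (mem_range.2 hj)).trans (sum_err_le hJ hd hm0 hm hg hsT _)
  refine le_trans ?_ ((sum_le_sum hmain).trans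
    (sum_le_sum_of_subset_of_nonneg (erase_subset _ _) fun _ _ _ => by positivity))
  rw [sum_const, nsmul_eq_mul]
  apply mul_le_mul_of_nonneg_right _ (by positivity)
  have h1 := pred_card_le_card_erase (s := range T) (a := L % (J * T) / J)
  rw [card_range] at h1
  have h2 : T ≤ ((range T).erase (L % (J * T) / J)).card + 1 := by omega
  have h3 : (T : ℝ) ≤ ((range T).erase (L % (J * T) / J)).card + 1 := by exact_mod_cast h2
  linarith

end Window

lemma win_sub (J T : ℕ) (g g' : ℕ → ℝ) (s j : ℕ) :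
    win J T g s j - win J T g' s j = win J T (fun l => g l - g' l) s j := by
  unfold win
  rw [← sub_div, ← sum_sub_distrib]

lemma abs_win_le {J T : ℕ} (hJ : 0 < J) {g : ℕ → ℝ} {d : ℝ} (hd : 0 ≤ d)
    (hg : ∀ l, |g l| ≤ tl l * d) (s j : ℕ) : |win J T g s j| ≤ tl ((j - 1) * (J * T)) * d := by
  have hJ' : (0 : ℝ) < J := by exact_mod_cast hJ
  unfold win
  rw [abs_div, abs_of_pos hJ', div_le_iff₀ hJ']
  refine (abs_sum_le_sum_abs _ _).trans ((sum_le_card_nsmul _ _
    (tl ((j - 1) * (J * T)) * d) ?_).trans ?_)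
  · intro l _
    exact (hg _).trans (mul_le_mul_of_nonneg_right (tl_anti (lev_ge _ _ _ _ _)) hd)
  · rw [card_range, nsmul_eq_mul, mul_comm]

lemma win_eq_of_good {J T : ℕ} (hJ : 0 < J) {g : ℕ → ℝ} {Z m : ℝ}
    (hg' : ∀ l, m ≤ tl l → g l = Z) {s : ℕ} (hs : s < T) {j : ℕ} (h : m ≤ tl (j * (J * T))) :
    win J T g s j = Z := by
  unfold win
  rw [sum_congr rfl (g := fun _ => Z) fun l hl =>
    hg' _ (h.trans (tl_anti (lev_le j hs (mem_range.1 hl))))]
  have : (J : ℝ) ≠ 0 := by positivity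
  simp [this]

end Vale.Agent.P249
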