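import Mathlib

namespace Vale.Agent.P249

open Finset Real

variable {Ω : Type} [Fintype Ω] [DecidableEq Ω]

/-- Product Bernoulli weights. -/
noncomputable def nu (θ : Ω → ℝ) (A : Ω → Bool) : ℝ := ∏ ω, if A ω then θ ω else 1 - θ ω

omit [DecidableEq Ω] in
lemma nu_nonneg {θ : Ω → ℝ} (h0 : ∀ ω, 0 ≤ θ ω) (h1 : ∀ ω, θ ω ≤ 1) (A : Ω → Bool) :
    0 ≤ nu θ A := by
  apply prod_nonneg
  intro ω _
  split_ifs
  · exact h0 ω
  · linarith [h1 ω]

lemma sum_nu_prod (θ : Ω → ℝ) (F : Ω → Bool → ℝ) :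
    ∑ A : Ω → Bool, nu θ A * ∏ ω, F ω (A ω) = ∏ ω, (θ ω * F ω true + (1 - θ ω) * F ω false) := by
  have h := prod_univ_sum (fun _ : Ω => (univ : Finset Bool))
    (fun ω b => (if b then θ ω else 1 - θ ω) * F ω b)
  rw [Fintype.piFinset_univ] at h
  simp only [Fintype.sum_bool, if_true, Bool.false_eq_true, if_false] at h
  rw [h]
  apply sum_congr rfl
  intro A _
  rw [nu, ← prod_mul_distrib]

lemma one_sub_sum_le_prod {ι : Type*} (s : Finset ι) (x : ι → ℝ) (h0 : ∀ i ∈ s, 0 ≤ x i)
    (h1 : ∀ i ∈ s, x i ≤ 1) : 1 - ∑ i ∈ s, x i ≤ ∏ i ∈ s, (1 - x i) := by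
  classical
  induction s using Finset.induction_on with
  | empty => simp
  | insert a s ha ih =>
    rw [sum_insert ha, prod_insert ha]
    have h2 := ih (fun i hi => h0 i (mem_insert_of_mem hi)) (fun i hi => h1 i (mem_insert_of_mem hi))
    have h3 := h0 a (mem_insert_self _ _)
    have h4 := h1 a (mem_insert_self _ _)
    have h5 : 0 ≤ ∑ i ∈ s, x i := sum_nonneg fun i hi => h0 i (mem_insert_of_mem hi)
    nlinarith [mul_le_mul_of_nonneg_left h2 (sub_nonneg.2 h4)]

lemma prod_one_add_le_exp {ι : Type*} (s : Finset ι) (x : ι → ℝ) (h0 : ∀ i ∈ s, 0 ≤ x i) :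
    ∏ i ∈ s, (1 + x i) ≤ exp (∑ i ∈ s, x i) := by
  rw [exp_sum]
  apply prod_le_prod
  · intro i hi; linarith [h0 i hi]
  · intro i _; linarith [add_one_le_exp (x i)]

/-- The expectation of a marked product. -/
lemma sum_nu_marked (θ : Ω → ℝ) (act : Ω → Prop) [DecidablePred act] (ω₀ : Ω) (v c : ℝ) :
    ∑ A : Ω → Bool, nu θ A * ((if A ω₀ then v else 0) *
      ∏ ω ∈ univ.erase ω₀, if act ω ∧ A ω then c else 1) =
      θ ω₀ * v * ∏ ω ∈ univ.erase ω₀, (1 + if act ω then θ ω * (c - 1) else 0) := by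
  have h := sum_nu_prod θ (fun ω b => if ω = ω₀ then (if b then v else 0) else
    (if act ω ∧ b then c else 1))
  rw [← mul_prod_erase univ _ (mem_univ ω₀)] at h
  simp only [if_true, Bool.false_eq_true, if_false, mul_zero, add_zero] at h
  convert h using 2
  · congr 1
    rw [← mul_prod_erase univ _ (mem_univ ω₀)]
    simp only [if_true]
    congr 1
    apply prod_congr rfl
    intro ω hω
    rw [if_neg (ne_of_mem_erase hω)]
  · apply prod_congr rfl
    intro ω hω
    simp only [if_neg (ne_of_mem_erase hω)]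
    by_cases ha : act ω
    · simp [ha]; ring
    · simp [ha]

lemma merge_lower {θ : Ω → ℝ} (h0 : ∀ ω, 0 ≤ θ ω) (h1 : ∀ ω, θ ω ≤ 1) (z : Ω → ℝ)
    (act : Ω → Prop) [DecidablePred act] (hz : ∀ ω, z ω ≠ 0 → act ω) {ε p : ℝ} (hp : 0 < p)
    (hε : ∑ ω, (if act ω then θ ω else 0) ≤ ε) :
    (1 - ε) * ∑ ω, θ ω * |z ω| ^ p ≤
      ∑ A : Ω → Bool, nu θ A * |∑ ω, if A ω then z ω else 0| ^ p := by
  have hab0 : ∀ z : ℝ, 0 ≤ |z| ^ p := fun z => rpow_nonneg (abs_nonneg _) p
  have hpt : ∀ A : Ω → Bool, ∑ ω₀, ((if A ω₀ then |z ω₀| ^ p else 0) *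
      ∏ ω ∈ univ.erase ω₀, if act ω ∧ A ω then (0 : ℝ) else 1) ≤
      |∑ ω, if A ω then z ω else 0| ^ p := by
    intro A
    by_cases hex : ∃ ω₀, ((if A ω₀ then |z ω₀| ^ p else 0) *
      ∏ ω ∈ univ.erase ω₀, if act ω ∧ A ω then (0 : ℝ) else 1) ≠ 0
    · obtain ⟨ω₀, hω₀⟩ := hex
      have ha := left_ne_zero_of_mul hω₀
      have hb := right_ne_zero_of_mul hω₀
      have hA : A ω₀ = true := by
        by_contra h; exact ha (if_neg h)
      have hz₀ : z ω₀ ≠ 0 := by
        intro h
        rw [if_pos hA, h, abs_zero, zero_rpow hp.ne'] at ha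
        exact ha rfl
      have hoth : ∀ ω, ω ≠ ω₀ → ¬ (act ω ∧ A ω) := by
        intro ω hω h
        exact hb (prod_eq_zero (mem_erase.2 ⟨hω, mem_univ _⟩) (if_pos h))
      rw [sum_eq_single ω₀, sum_eq_single ω₀, if_pos hA, if_pos hA, prod_eq_one, mul_one]
      · intro ω hω
        rw [if_neg (hoth ω (ne_of_mem_erase hω))]
      · intro ω _ hω
        split_ifs with h
        · by_contra h'
          exact hoth ω hω ⟨hz ω h', h⟩
        · rfl
      · simp
      · intro ω _ hω
        apply mul_eq_zero_of_right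
        exact prod_eq_zero (i := ω₀) (mem_erase.2 ⟨hω.symm, mem_univ _⟩)
          (if_pos ⟨hz ω₀ hz₀, hA⟩)
      · simp
    · push Not at hex
      rw [sum_eq_zero fun ω _ => hex ω]
      exact hab0 _
  refine le_trans ?_ (sum_le_sum fun A _ => mul_le_mul_of_nonneg_left (hpt A) (nu_nonneg h0 h1 A))
  simp only [mul_sum]
  rw [sum_comm]
  apply sum_le_sum
  intro ω₀ _
  rw [sum_nu_marked, mul_comm]
  apply mul_le_mul_of_nonneg_left _ (mul_nonneg (h0 _) (hab0 _))
  have h2 := one_sub_sum_le_prod (univ.erase ω₀) (fun ω => if act ω then θ ω else 0)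
    (by intro ω _; split_ifs; exacts [h0 ω, le_rfl])
    (by intro ω _; split_ifs; exacts [h1 ω, zero_le_one])
  have h3 : ∑ ω ∈ univ.erase ω₀, (if act ω then θ ω else 0) ≤ ∑ ω, (if act ω then θ ω else 0) := by
    apply sum_le_sum_of_subset_of_nonneg (erase_subset _ _)
    intro ω _ _; split_ifs; exacts [h0 ω, le_rfl]
  refine le_trans (by linarith) (h2.trans (le_of_eq ?_))
  apply prod_congr rfl
  intro ω _
  split_ifs <;> ring

lemma merge_upper {θ : Ω → ℝ} (h0 : ∀ ω, 0 ≤ θ ω) (h1 : ∀ ω, θ ω ≤ 1) (z : Ω → ℝ)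
    (act : Ω → Prop) [DecidablePred act] (hz : ∀ ω, z ω ≠ 0 → act ω) {ε p : ℝ} (hp : 0 < p)
    (hε : ∑ ω, (if act ω then θ ω else 0) ≤ ε) :
    ∑ A : Ω → Bool, nu θ A * |∑ ω, if A ω then z ω else 0| ^ p ≤
      exp (2 ^ p * ε) * ∑ ω, θ ω * |z ω| ^ p := by
  have hab0 : ∀ z : ℝ, 0 ≤ |z| ^ p := fun z => rpow_nonneg (abs_nonneg _) p
  have hc : (1 : ℝ) ≤ 2 ^ p := one_le_rpow one_le_two hp.le
  have hpt : ∀ A : Ω → Bool, |∑ ω, if A ω then z ω else 0| ^ p ≤
      ∑ ω₀, ((if A ω₀ then |z ω₀| ^ p else 0) *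
      ∏ ω ∈ univ.erase ω₀, if act ω ∧ A ω then (2 : ℝ) ^ p else 1) := by
    intro A
    have hterm : ∀ ω₀, 0 ≤ ((if A ω₀ then |z ω₀| ^ p else 0) *
      ∏ ω ∈ univ.erase ω₀, if act ω ∧ A ω then (2 : ℝ) ^ p else 1) := by
      intro ω₀
      apply mul_nonneg
      · split_ifs; exacts [hab0 _, le_rfl]
      · apply prod_nonneg; intro ω _; split_ifs <;> linarith
    set T := univ.filter fun ω => act ω ∧ A ω with hT
    have hsum : (∑ ω, if A ω then z ω else 0) = ∑ ω ∈ T, z ω := by
      rw [hT, sum_filter]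
      apply sum_congr rfl
      intro ω _
      by_cases hA : A ω = true
      · by_cases ha : act ω
        · simp [hA, ha]
        · have : z ω = 0 := by by_contra h; exact ha (hz ω h)
          simp [this]
      · simp [hA]
    rcases T.eq_empty_or_nonempty with hTe | hTn
    · rw [hsum, hTe, sum_empty, abs_zero, zero_rpow hp.ne']
      exact sum_nonneg fun ω _ => hterm ω
    · obtain ⟨ω₀, hω₀, hmax⟩ := exists_max_image T (fun ω => |z ω|) hTn
      refine le_trans ?_ (single_le_sum (fun ω _ => hterm ω) (mem_univ ω₀))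
      have hA : A ω₀ = true := (mem_filter.1 hω₀).2.2
      rw [if_pos hA, prod_ite, prod_const_one, mul_one, prod_const, filter_erase, ← hT,
        card_erase_of_mem hω₀, hsum]
      have h2 : |∑ ω ∈ T, z ω| ≤ |z ω₀| * 2 ^ (T.card - 1) := by
        refine (abs_sum_le_sum_abs _ _).trans ((sum_le_card_nsmul _ _ _ hmax).trans ?_)
        rw [nsmul_eq_mul, mul_comm]
        apply mul_le_mul_of_nonneg_left _ (abs_nonneg _)
        have h3 : T.card - 1 < 2 ^ (T.card - 1) := Nat.lt_two_pow_self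
        have h4 : T.card ≤ 2 ^ (T.card - 1) := by omega
        exact_mod_cast h4
      refine (rpow_le_rpow (abs_nonneg _) h2 hp.le).trans (le_of_eq ?_)
      rw [mul_rpow (abs_nonneg _) (by positivity), ← rpow_natCast, ← rpow_natCast,
        ← rpow_mul (by norm_num), ← rpow_mul (by norm_num), mul_comm p]
  refine le_trans (sum_le_sum fun A _ => mul_le_mul_of_nonneg_left (hpt A) (nu_nonneg h0 h1 A)) ?_
  simp only [mul_sum]
  rw [sum_comm]
  apply sum_le_sum
  intro ω₀ _
  rw [sum_nu_marked, mul_comm (exp _)]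
  apply mul_le_mul_of_nonneg_left _ (mul_nonneg (h0 _) (hab0 _))
  refine (prod_one_add_le_exp _ _ ?_).trans (exp_le_exp.2 ?_)
  · intro ω _
    split_ifs
    · exact mul_nonneg (h0 ω) (by linarith)
    · exact le_rfl
  · refine le_trans ?_ (mul_le_mul_of_nonneg_left hε (by linarith))
    rw [mul_sum]
    refine le_trans (sum_le_sum ?_) (sum_le_sum_of_subset_of_nonneg (erase_subset ω₀ univ) ?_)
    · intro ω _
      split_ifs
      · nlinarith [h0 ω]
      · simp
    · intro ω _ _
      split_ifs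
      · exact mul_nonneg (by linarith) (h0 ω)
      · simp

lemma merge_count {θ : Ω → ℝ} (h0 : ∀ ω, 0 ≤ θ ω) (act : Ω → Prop) [DecidablePred act]
    (hε : ∑ ω, (if act ω then θ ω else 0) ≤ 1) :
    ∑ A : Ω → Bool, nu θ A * exp ((univ.filter fun ω => act ω ∧ A ω).card) ≤ exp 2 := by
  have h := sum_nu_prod θ (fun ω b => if act ω ∧ b then exp 1 else 1)
  have h1 : ∀ A : Ω → Bool, exp ((univ.filter fun ω => act ω ∧ A ω).card) =
      ∏ ω, if act ω ∧ A ω then exp 1 else 1 := by
    intro A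
    rw [prod_ite, prod_const_one, mul_one, prod_const, ← exp_nat_mul, mul_one]
  simp only [h1]
  rw [h]
  have he : exp 1 ≤ 3 := le_trans exp_one_lt_d9.le (by norm_num)
  calc _ ≤ ∏ ω, (1 + if act ω then 2 * θ ω else 0) := by
        apply le_of_eq_of_le (b := ∏ ω, (1 + if act ω then (exp 1 - 1) * θ ω else 0))
        · apply prod_congr rfl
          intro ω _
          by_cases ha : act ω
          · simp [ha]; ring
          · simp [ha]
        · apply prod_le_prod
          · intro ω _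
            split_ifs
            · have : 0 ≤ (exp 1 - 1) * θ ω :=
                mul_nonneg (by linarith [add_one_le_exp (1 : ℝ)]) (h0 ω)
              linarith
            · simp
          · intro ω _
            split_ifs
            · nlinarith [h0 ω]
            · simp
    _ ≤ exp (∑ ω, if act ω then 2 * θ ω else 0) := by
        apply prod_one_add_le_exp
        intro ω _
        split_ifs
        · linarith [h0 ω]
        · simp
    _ ≤ exp 2 := by
        apply exp_le_exp.2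
        have : (∑ ω, if act ω then 2 * θ ω else 0) = 2 * ∑ ω, (if act ω then θ ω else 0) := by
          rw [mul_sum]; apply sum_congr rfl; intro ω _; split_ifs <;> simp
        linarith

lemma rpow_le_split {K l p n : ℝ} (hp : 0 < p) (hK : 0 ≤ K) (hl0 : 0 ≤ l) (hn : 0 < n)
    (hl : 2 * log n ≤ l) : K ^ p ≤ l ^ p + (2 * p) ^ p * (exp K / n) := by
  rcases le_or_gt K l with h | h
  · have := rpow_le_rpow hK h hp.le
    have : 0 ≤ (2 * p) ^ p * (exp K / n) := by positivity
    linarith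
  · have h1 : K ≤ 2 * p * exp (K / (2 * p)) := by
      have := add_one_le_exp (K / (2 * p))
      have h2 : K = 2 * p * (K / (2 * p)) := by field_simp
      nlinarith
    have h2 : K ^ p ≤ (2 * p) ^ p * exp (K / 2) := by
      refine (rpow_le_rpow hK h1 hp.le).trans (le_of_eq ?_)
      rw [mul_rpow (by positivity) (exp_pos _).le, ← exp_mul]
      congr 2
      field_simp
    have h3 : exp (K / 2) ≤ exp K / n := by
      rw [le_div_iff₀ hn, ← exp_log hn, ← exp_add, exp_le_exp]
      linarith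
    have h4 : 0 ≤ l ^ p := rpow_nonneg hl0 p
    have h5 := mul_le_mul_of_nonneg_left h3 (show 0 ≤ (2 * p) ^ p by positivity)
    linarith

/-- Merging sparse coordinates. -/
theorem merge {X : Type} [Fintype X] [Nonempty X] [MetricSpace X] {p : ℝ} (hp : 0 < p)
    (μ : Ω → ℝ) (hμ : ∀ ω, 0 ≤ μ ω) (f : Ω → X → ℝ) {L N ε l : ℝ} (hL : 0 ≤ L) (hN : 0 < N)
    (hε : 0 < ε) (hε1 : ε ≤ 1) (hl0 : 0 ≤ l) (hl : 2 * log (Fintype.card X) ≤ l)
    (hf : ∀ ω x y, |f ω x - f ω y| ≤ L * dist x y)
    (act : X → Ω → Prop) [∀ x, DecidablePred (act x)]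
    (hact : ∀ ω x y, f ω x ≠ f ω y → act x ω ∨ act y ω)
    (hN1 : ∀ x, ∑ ω, (if act x ω then μ ω else 0) ≤ N) (hN2 : ∀ ω, μ ω ≤ N) :
    ∃ (w : (Ω → Bool) → ℝ) (b : (Ω → Bool) → X → ℝ) (σ : (Ω → Bool) → ℝ),
      (∀ A, 0 ≤ w A) ∧ (∀ A, 0 ≤ σ A) ∧
      (∀ A x y, |b A x - b A y| ^ p ≤ σ A * dist x y ^ p) ∧
      ∑ A, w A * σ A ≤ 2 * N / ε * ((2 * L) ^ p * (l ^ p + (2 * p) ^ p * exp 2)) ∧
      ∀ x y, (1 - ε) * ∑ ω, μ ω * |f ω x - f ω y| ^ p ≤ ∑ A, w A * |b A x - b A y| ^ p ∧
        ∑ A, w A * |b A x - b A y| ^ p ≤ exp (2 ^ p * ε) * ∑ ω, μ ω * |f ω x - f ω y| ^ p := by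
  classical
  set r := ε / (2 * N) with hr
  have hr0 : 0 < r := by positivity
  have hrN : r * N = ε / 2 := by rw [hr]; field_simp
  have hrinv : 2 * N / ε * r = 1 := by rw [hr]; field_simp
  let θ : Ω → ℝ := fun ω => r * μ ω
  have h0 : ∀ ω, 0 ≤ θ ω := fun ω => mul_nonneg hr0.le (hμ ω)
  have h1 : ∀ ω, θ ω ≤ 1 := fun ω => by
    have := mul_le_mul_of_nonneg_left (hN2 ω) hr0.le
    simp only [θ]
    linarith
  have hx : ∀ x, ∑ ω, (if act x ω then θ ω else 0) ≤ ε / 2 := by
    intro x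
    have : ∑ ω, (if act x ω then θ ω else 0) = r * ∑ ω, (if act x ω then μ ω else 0) := by
      rw [mul_sum]; apply sum_congr rfl; intro ω _; split_ifs <;> simp [θ]
    rw [this, ← hrN]
    exact mul_le_mul_of_nonneg_left (hN1 x) hr0.le
  have hxy : ∀ x y, ∑ ω, (if act x ω ∨ act y ω then θ ω else 0) ≤ ε := by
    intro x y
    refine le_trans ?_ (show _ + _ ≤ ε by linarith [hx x, hx y] :
      ∑ ω, (if act x ω then θ ω else 0) + ∑ ω, (if act y ω then θ ω else 0) ≤ ε)
    rw [← sum_add_distrib]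
    apply sum_le_sum
    intro ω _
    by_cases ha : act x ω <;> by_cases hb : act y ω <;> simp [ha, hb, h0 ω]
  have hn : (0 : ℝ) < Fintype.card X := by exact_mod_cast Fintype.card_pos
  let K : X → (Ω → Bool) → ℝ := fun x A => (univ.filter fun ω => act x ω ∧ A ω).card
  have hw0 : 0 ≤ 2 * N / ε := by positivity
  have hdiff : ∀ (A : Ω → Bool) x y, (∑ ω, if A ω then f ω x else 0) -
      (∑ ω, if A ω then f ω y else 0) = ∑ ω, if A ω then f ω x - f ω y else 0 := by
    intro A x y
    rw [← sum_sub_distrib]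
    apply sum_congr rfl
    intro ω _
    split_ifs <;> simp
  refine ⟨fun A => 2 * N / ε * nu θ A, fun A x => ∑ ω, if A ω then f ω x else 0,
    fun A => (2 * L) ^ p * (l ^ p + (2 * p) ^ p * ∑ x, exp (K x A) / Fintype.card X),
    fun A => mul_nonneg hw0 (nu_nonneg h0 h1 A), fun A => by positivity, ?_, ?_, ?_⟩
  · intro A x y
    rw [hdiff]
    have hKK : ∀ u v : X, K u A ≤ K v A → |∑ ω, if A ω then f ω x - f ω y else 0| ≤
        (K u A + K v A) * (L * dist x y) → |∑ ω, if A ω then f ω x - f ω y else 0| ^ p ≤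
        (2 * L) ^ p * (l ^ p + (2 * p) ^ p * ∑ x, exp (K x A) / Fintype.card X) *
          dist x y ^ p := by
      intro u v huv h
      have hK0 : 0 ≤ K v A := Nat.cast_nonneg _
      have h2 : |∑ ω, if A ω then f ω x - f ω y else 0| ≤ 2 * L * K v A * dist x y := by
        refine h.trans ?_
        have : 0 ≤ L * dist x y := by positivity
        nlinarith
      refine (rpow_le_rpow (abs_nonneg _) h2 hp.le).trans ?_
      rw [mul_rpow (by positivity) dist_nonneg, mul_rpow (by positivity) hK0]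
      gcongr
      refine (rpow_le_split hp hK0 hl0 hn hl).trans ?_
      gcongr
      exact single_le_sum (f := fun x => exp (K x A) / Fintype.card X)
        (fun _ _ => by positivity) (mem_univ v)
    have h3 : |∑ ω, if A ω then f ω x - f ω y else 0| ≤ (K x A + K y A) * (L * dist x y) := by
      refine (abs_sum_le_sum_abs _ _).trans ?_
      simp only [K, card_filter, Nat.cast_sum, ← sum_add_distrib, sum_mul]
      apply sum_le_sum
      intro ω _
      have h4 := hf ω x y
      have h5 : 0 ≤ L * dist x y := by positivity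
      by_cases hA : A ω = true
      · by_cases heq : f ω x = f ω y
        · simp only [heq, sub_self, ite_self, abs_zero]
          positivity
        · rcases hact ω x y heq with h | h
          · by_cases h' : act y ω <;> simp [hA, h, h'] <;> linarith
          · by_cases h' : act x ω <;> simp [hA, h, h'] <;> linarith
      · simp [hA]
    rcases le_total (K x A) (K y A) with h | h
    · exact hKK x y h h3
    · exact hKK y x h (by rwa [add_comm])
  · have hsum1 : ∑ A : Ω → Bool, nu θ A = 1 := by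
      have := sum_nu_prod θ (fun _ _ => 1)
      simpa using this
    have h2 : ∑ A : Ω → Bool, nu θ A * ∑ x, exp (K x A) / Fintype.card X ≤ exp 2 := by
      simp only [mul_sum]
      rw [sum_comm]
      calc ∑ x, ∑ A : Ω → Bool, nu θ A * (exp (K x A) / Fintype.card X)
          ≤ ∑ x : X, exp 2 / Fintype.card X := by
            apply sum_le_sum
            intro x _
            simp only [← mul_div_assoc]
            rw [← sum_div]
            gcongr
            exact merge_count h0 (act x) (by linarith [hx x])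
        _ = exp 2 := by
            rw [sum_const, card_univ, nsmul_eq_mul]; field_simp
    calc _ = 2 * N / ε * ((2 * L) ^ p * (l ^ p * ∑ A : Ω → Bool, nu θ A + (2 * p) ^ p *
          ∑ A : Ω → Bool, nu θ A * ∑ x, exp (K x A) / Fintype.card X)) := by
          rw [mul_sum, mul_sum, ← sum_add_distrib, mul_sum, mul_sum]
          apply sum_congr rfl; intro A _; ring
      _ ≤ _ := by
          rw [hsum1, mul_one]
          gcongr
  · intro x y
    have hz : ∀ ω, f ω x - f ω y ≠ 0 → act x ω ∨ act y ω :=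
      fun ω h => hact ω x y (sub_ne_zero.1 h)
    have h2 := merge_lower h0 h1 (fun ω => f ω x - f ω y) _ hz hp (hxy x y)
    have h3 := merge_upper h0 h1 (fun ω => f ω x - f ω y) _ hz hp (hxy x y)
    have h4 : ∑ ω, θ ω * |f ω x - f ω y| ^ p = r * ∑ ω, μ ω * |f ω x - f ω y| ^ p := by
      rw [mul_sum]; apply sum_congr rfl; intro ω _; simp only [θ]; ring
    simp only [hdiff, mul_assoc (2 * N / ε)]
    rw [← mul_sum]
    rw [h4] at h2 h3
    have h5 := mul_le_mul_of_nonneg_left h2 hw0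
    have h6 := mul_le_mul_of_nonneg_left h3 hw0
    constructor
    · refine le_trans (le_of_eq ?_) h5
      rw [mul_left_comm, ← mul_assoc (2 * N / ε), hrinv, one_mul]
    · refine h6.trans (le_of_eq ?_)
      rw [mul_left_comm, ← mul_assoc (2 * N / ε), hrinv, one_mul]

end Vale.Agent.P249
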