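import Vale.Agent.P249.Sample
import Vale.Agent.P249.Merge
import Vale.Agent.P249.Decomp

namespace Vale.Agent.P249

open Finset Real

variable {X Ω : Type} [Fintype X] [Nonempty X] [MetricSpace X] [Fintype Ω]

lemma normalize {p Λ : ℝ} (hp : 0 < p) (a M : Ω → X → ℝ) (hM : ∀ ω x, 0 ≤ M ω x)
    (ha : ∀ ω x y, |a ω x - a ω y| ≤ dist x y * (M ω x + M ω y))
    (hΛ : ∀ x, ∑ ω, M ω x ^ p ≤ Λ ^ p) :
    ∃ (μ : Ω → ℝ) (a' M' : Ω → X → ℝ), (∀ ω, 0 ≤ μ ω) ∧ (∀ ω x, 0 ≤ M' ω x) ∧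
      (∀ ω x, M' ω x ≤ 1) ∧ (∀ ω x y, |a' ω x - a' ω y| ≤ dist x y * (M' ω x + M' ω y)) ∧
      (∀ ω x y, μ ω * |a' ω x - a' ω y| ^ p = |a ω x - a ω y| ^ p) ∧
      (∀ x, ∑ ω, μ ω * M' ω x ^ p ≤ Λ ^ p) ∧ (∀ ω, μ ω ≤ Λ ^ p) ∧
      ∑ ω, μ ω ≤ Fintype.card X * Λ ^ p := by
  choose x₀ _ hx₀ using fun ω => exists_max_image univ (M ω) univ_nonempty
  have hmax : ∀ ω x, M ω x ≤ M ω (x₀ ω) := fun ω x => hx₀ ω x (mem_univ _)
  have hscale : ∀ ω (u : ℝ), 0 ≤ u → (M ω (x₀ ω) = 0 → u = 0) →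
      M ω (x₀ ω) ^ p * (u / M ω (x₀ ω)) ^ p = u ^ p := by
    intro ω u hu h
    rcases (hM ω (x₀ ω)).eq_or_lt with h0 | h0
    · rw [h h0.symm, ← h0]; simp [zero_rpow hp.ne']
    · rw [← mul_rpow h0.le (by positivity)]
      congr 1
      field_simp
  refine ⟨fun ω => M ω (x₀ ω) ^ p, fun ω x => a ω x / M ω (x₀ ω), fun ω x => M ω x / M ω (x₀ ω),
    fun ω => rpow_nonneg (hM _ _) p, fun ω x => div_nonneg (hM _ _) (hM _ _),
    fun ω x => div_le_one_of_le₀ (hmax ω x) (hM _ _), fun ω x y => ?_, fun ω x y => ?_,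
    fun x => ?_, fun ω => ?_, ?_⟩
  · rw [← sub_div, abs_div, abs_of_nonneg (hM _ _), ← add_div, ← mul_div_assoc]
    exact div_le_div_of_nonneg_right (ha ω x y) (hM _ _)
  · rw [← sub_div, abs_div, abs_of_nonneg (hM _ _)]
    apply hscale ω _ (abs_nonneg _)
    intro h
    have h1 := ha ω x y
    have h2 : M ω x = 0 := le_antisymm (h ▸ hmax ω x) (hM _ _)
    have h3 : M ω y = 0 := le_antisymm (h ▸ hmax ω y) (hM _ _)
    rw [h2, h3, add_zero, mul_zero] at h1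
    exact le_antisymm h1 (abs_nonneg _)
  · refine le_trans (le_of_eq ?_) (hΛ x)
    apply sum_congr rfl
    intro ω _
    exact hscale ω _ (hM _ _) fun h => le_antisymm (h ▸ hmax ω x) (hM _ _)
  · exact (single_le_sum (f := fun ω' => M ω' (x₀ ω) ^ p) (fun _ _ => rpow_nonneg (hM _ _) p)
      (mem_univ ω)).trans (hΛ _)
  · calc ∑ ω, M ω (x₀ ω) ^ p ≤ ∑ ω, ∑ x, M ω x ^ p :=
          sum_le_sum fun ω _ => single_le_sum (f := fun x => M ω x ^ p)
            (fun _ _ => rpow_nonneg (hM _ _) p) (mem_univ _)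
      _ = ∑ x, ∑ ω, M ω x ^ p := sum_comm
      _ ≤ ∑ _x : X, Λ ^ p := sum_le_sum fun x _ => hΛ x
      _ = _ := by rw [sum_const, card_univ, nsmul_eq_mul]

/-- The pieces of the decomposition. -/
noncomputable def piece (J T : ℕ) (h : ℕ → X → ℝ) (s j : ℕ) (x : X) : ℝ :=
  win J T (fun l => h l x) s j - win J T (fun l => h l x) s (j + 1)

omit [Fintype X] [Nonempty X] [MetricSpace X] in
lemma piece_sub (J T : ℕ) (h : ℕ → X → ℝ) (s j : ℕ) (x y : X) :
    piece J T h s j x - piece J T h s j y = win J T (fun l => h l x - h l y) s j -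
      win J T (fun l => h l x - h l y) s (j + 1) := by
  rw [← win_sub, ← win_sub, piece, piece]; ring

omit [Fintype X] [Nonempty X] in
lemma decomp_bounds {p Λ η ε n : ℝ} (hp : 1 ≤ p) (hη : 0 < η) (hε : 0 < ε)
    (hηε : (1 + η) ^ p ≤ 1 + ε) {J T K : ℕ} (hJ : 0 < J) (hT : 1 / ε ≤ T)
    (μ : Ω → ℝ) (a M : Ω → X → ℝ) (hμ : ∀ ω, 0 ≤ μ ω) (hM : ∀ ω x, 0 ≤ M ω x)
    (hM1 : ∀ ω x, M ω x ≤ 1) (ha : ∀ ω x y, |a ω x - a ω y| ≤ dist x y * (M ω x + M ω y))
    (hd : ∀ x y, ∑ ω, μ ω * |a ω x - a ω y| ^ p = dist x y ^ p)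
    (hΛ : ∀ x, ∑ ω, μ ω * M ω x ^ p ≤ Λ ^ p) (hn : ∑ ω, μ ω ≤ n * Λ ^ p)
    (hJΛ : (1 + 1 / η) ^ p * (2 * (8 / J) ^ p * Λ ^ p) ≤ ε)
    (hK : n * Λ ^ p * tl (K * (J * T)) ^ p ≤ ε)
    (h : Ω → ℕ → X → ℝ) (hh : ∀ ω l x y, |h ω l x - h ω l y| ≤ tl l * dist x y)
    (hh' : ∀ ω l x, 2 * M ω x ≤ tl l → h ω l x = a ω x) (x y : X) :
    (∑ s ∈ range T, ∑ j ∈ range (K + 1), ∑ ω,
      μ ω * |piece J T (h ω) s j x - piece J T (h ω) s j y| ^ p) / T ≤ (1 + 2 * ε) * dist x y ^ p ∧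
    (1 - 3 * ε) * dist x y ^ p ≤ (1 + ε) * ((∑ s ∈ range T, ∑ j ∈ range (K + 1), ∑ ω,
      μ ω * |piece J T (h ω) s j x - piece J T (h ω) s j y| ^ p) / T) := by
  classical
  have hp0 : 0 < p := by linarith
  have hT0 : (0 : ℝ) < T := lt_of_lt_of_le (by positivity) hT
  have hJ' : (0 : ℝ) < J := by exact_mod_cast hJ
  set d := dist x y with hdd
  have hd0 : 0 ≤ d := dist_nonneg
  have hdp : 0 ≤ d ^ p := rpow_nonneg hd0 p
  let m : Ω → ℝ := fun ω => 2 * max (M ω x) (M ω y)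
  have hm0 : ∀ ω, 0 ≤ m ω := fun ω => mul_nonneg zero_le_two (le_max_of_le_left (hM _ _))
  have hm2 : ∀ ω, m ω ≤ 2 := fun ω => by
    have := max_le (hM1 ω x) (hM1 ω y)
    simp only [m]; linarith
  have hg' : ∀ ω l, m ω ≤ tl l → h ω l x - h ω l y = a ω x - a ω y := by
    intro ω l hl
    simp only [m] at hl
    rw [hh' ω l x (by linarith [le_max_left (M ω x) (M ω y)]),
      hh' ω l y (by linarith [le_max_right (M ω x) (M ω y)])]
  have hZ : ∀ ω, |a ω x - a ω y| ≤ m ω * d := by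
    intro ω
    refine (ha ω x y).trans ?_
    rw [mul_comm]
    apply mul_le_mul_of_nonneg_right _ hd0
    simp only [m]
    linarith [le_max_left (M ω x) (M ω y), le_max_right (M ω x) (M ω y)]
  have herr : ∑ ω, μ ω * ((1 + 1 / η) ^ p * (4 * m ω * d / J) ^ p) ≤ ε * d ^ p := by
    have h1 : ∀ ω, (4 * m ω * d / J) ^ p ≤ (8 / J) ^ p * d ^ p * (M ω x ^ p + M ω y ^ p) := by
      intro ω
      have h2 : 4 * m ω * d / J = 8 / J * d * max (M ω x) (M ω y) := by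
        simp only [m]; ring
      rw [h2, mul_rpow (by positivity) (le_max_of_le_left (hM _ _)),
        mul_rpow (by positivity) hd0]
      apply mul_le_mul_of_nonneg_left _ (by positivity)
      have := rpow_nonneg (hM ω x) p
      have := rpow_nonneg (hM ω y) p
      rcases le_total (M ω x) (M ω y) with h | h
      · rw [max_eq_right h]; linarith
      · rw [max_eq_left h]; linarith
    calc _ ≤ ∑ ω, (1 + 1 / η) ^ p * ((8 / J) ^ p * d ^ p) *
          (μ ω * M ω x ^ p + μ ω * M ω y ^ p) := by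
          apply sum_le_sum
          intro ω _
          have h2 := mul_le_mul_of_nonneg_left (h1 ω)
            (mul_nonneg (hμ ω) (show 0 ≤ (1 + 1 / η) ^ p by positivity))
          linarith
      _ ≤ (1 + 1 / η) ^ p * ((8 / J) ^ p * d ^ p) * (Λ ^ p + Λ ^ p) := by
          rw [← mul_sum, sum_add_distrib]
          exact mul_le_mul_of_nonneg_left (add_le_add (hΛ x) (hΛ y)) (by positivity)
      _ = (1 + 1 / η) ^ p * (2 * (8 / J) ^ p * Λ ^ p) * d ^ p := by ring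
      _ ≤ ε * d ^ p := mul_le_mul_of_nonneg_right hJΛ hdp
  simp only [piece_sub]
  let W : Ω → ℕ → ℝ := fun ω s => ∑ j ∈ range (K + 1),
    |win J T (fun l => h ω l x - h ω l y) s j - win J T (fun l => h ω l x - h ω l y) s (j + 1)| ^ p
  have hW0 : ∀ ω s, 0 ≤ W ω s := fun ω s => sum_nonneg fun _ _ => by positivity
  have hre : ∑ s ∈ range T, ∑ j ∈ range (K + 1), ∑ ω, μ ω *
      |win J T (fun l => h ω l x - h ω l y) s j -
        win J T (fun l => h ω l x - h ω l y) s (j + 1)| ^ p = ∑ ω, ∑ s ∈ range T, μ ω * W ω s := by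
    rw [sum_comm (s := univ)]
    apply sum_congr rfl
    intro s _
    rw [sum_comm]
    simp only [W, mul_sum]
  rw [hre]
  constructor
  · rw [div_le_iff₀ hT0, sum_comm]
    have h1 : ∀ s ∈ range T, ∑ ω, μ ω * W ω s ≤ (1 + 2 * ε) * d ^ p := by
      intro s hs
      calc ∑ ω, μ ω * W ω s ≤ ∑ ω, ((1 + η) ^ p * (μ ω * |a ω x - a ω y| ^ p) +
            μ ω * ((1 + 1 / η) ^ p * (4 * m ω * d / J) ^ p)) := by
            apply sum_le_sum
            intro ω _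
            have := mul_le_mul_of_nonneg_left (win_upper hJ hd0 (hm0 ω) (hm2 ω)
              (fun l => hh ω l x y) (hg' ω) (mem_range.1 hs) (K + 1) hη hp) (hμ ω)
            simp only [W]
            linarith
        _ ≤ (1 + 2 * ε) * d ^ p := by
            rw [sum_add_distrib, ← mul_sum, hd]
            nlinarith [mul_le_mul_of_nonneg_right hηε hdp]
    refine (sum_le_sum h1).trans (le_of_eq ?_)
    rw [sum_const, card_range, nsmul_eq_mul, mul_comm]
  · have h1 : ∀ ω, ((T : ℝ) - 1) * (μ ω * |a ω x - a ω y| ^ p) ≤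
        (1 + ε) * (∑ s ∈ range T, μ ω * W ω s) +
        T * (μ ω * ((1 + 1 / η) ^ p * (4 * m ω * d / J) ^ p)) +
        T * (μ ω * (tl (K * (J * T)) ^ p * d ^ p)) := by
      intro ω
      have hA : 0 ≤ ∑ s ∈ range T, μ ω * W ω s :=
        sum_nonneg fun s _ => mul_nonneg (hμ ω) (hW0 ω s)
      have hB : 0 ≤ μ ω * ((1 + 1 / η) ^ p * (4 * m ω * d / J) ^ p) := by
        have := hm0 ω
        have := hμ ω
        positivity
      have hC : 0 ≤ μ ω * (tl (K * (J * T)) ^ p * d ^ p) := by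
        have := tl_pos (K * (J * T))
        have := hμ ω
        positivity
      rcases lt_or_ge (tl (K * (J * T))) (m ω) with hlt | hge
      · have h2 := mul_le_mul_of_nonneg_left (win_lower hJ hd0 (hm0 ω) (hm2 ω)
          (fun l => hh ω l x y) (hg' ω) K hlt hη hp) (hμ ω)
        rw [sum_add_distrib, sum_const, card_range, nsmul_eq_mul, ← mul_sum] at h2
        have h3 := mul_le_mul_of_nonneg_right hηε hA
        rw [← mul_sum] at h3 hA ⊢
        have h4 := mul_nonneg hT0.le hC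
        simp only [W] at h3 ⊢
        linarith
      · have h2 : |a ω x - a ω y| ^ p ≤ tl (K * (J * T)) ^ p * d ^ p := by
          rw [← mul_rpow (tl_pos _).le hd0]
          exact rpow_le_rpow (abs_nonneg _)
            ((hZ ω).trans (mul_le_mul_of_nonneg_right hge hd0)) hp0.le
        have h3 := mul_le_mul_of_nonneg_left h2 (hμ ω)
        have h4 : 0 ≤ μ ω * |a ω x - a ω y| ^ p := mul_nonneg (hμ ω) (by positivity)
        have h5 := mul_nonneg hT0.le hB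
        have h6 := mul_nonneg (show 0 ≤ 1 + ε by linarith) hA
        nlinarith
    have h2 := sum_le_sum fun ω (_ : ω ∈ univ) => h1 ω
    rw [sum_add_distrib, sum_add_distrib, ← mul_sum, ← mul_sum, ← mul_sum, ← mul_sum, hd,
      ← sum_mul] at h2
    have h3 : (∑ ω, μ ω) * (tl (K * (J * T)) ^ p * d ^ p) ≤ ε * d ^ p := by
      have := tl_pos (K * (J * T))
      calc _ ≤ n * Λ ^ p * (tl (K * (J * T)) ^ p * d ^ p) :=
            mul_le_mul_of_nonneg_right hn (by positivity)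
        _ = n * Λ ^ p * tl (K * (J * T)) ^ p * d ^ p := by ring
        _ ≤ ε * d ^ p := mul_le_mul_of_nonneg_right hK hdp
    rw [← mul_div_assoc, le_div_iff₀ hT0]
    have h4 : 1 ≤ ε * T := by rwa [div_le_iff₀' hε] at hT
    have h5 := mul_le_mul_of_nonneg_left herr hT0.le
    have h6 := mul_le_mul_of_nonneg_left h3 hT0.le
    have h7 := mul_le_mul_of_nonneg_right h4 hdp
    linarith

lemma tl_ratio (j P : ℕ) : tl ((j - 1) * P) ≤ 4 ^ P * tl ((j + 1) * P) := by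
  have h1 : (j + 1) * P ≤ (j - 1) * P + 2 * P := by
    rw [← Nat.add_mul]; exact Nat.mul_le_mul_right _ (by omega)
  refine le_trans (le_of_eq ?_) (mul_le_mul_of_nonneg_left (tl_anti h1) (by positivity))
  unfold tl
  rw [pow_add, show (4 : ℝ) = 2 ^ 2 by norm_num, ← pow_mul]
  field_simp

lemma piece_merge [DecidableEq Ω] {p Λ ε l : ℝ} (hp : 0 < p) (hΛ0 : 0 < Λ) (hε : 0 < ε)
    (hε1 : ε ≤ 1) (hl0 : 0 ≤ l) (hl : 2 * log (Fintype.card X) ≤ l) {J T : ℕ} (hJ : 0 < J)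
    (μ : Ω → ℝ) (a M : Ω → X → ℝ) (hμ : ∀ ω, 0 ≤ μ ω) (hM : ∀ ω x, 0 ≤ M ω x)
    (hΛ : ∀ x, ∑ ω, μ ω * M ω x ^ p ≤ Λ ^ p) (hμΛ : ∀ ω, μ ω ≤ Λ ^ p)
    (h : Ω → ℕ → X → ℝ) (hh : ∀ ω l x y, |h ω l x - h ω l y| ≤ tl l * dist x y)
    (hh' : ∀ ω l x, 2 * M ω x ≤ tl l → h ω l x = a ω x) (s : Fin T) (j : ℕ) :
    ∃ (w : (Ω → Bool) → ℝ) (b : (Ω → Bool) → X → ℝ) (σ : (Ω → Bool) → ℝ),
      (∀ A, 0 ≤ w A) ∧ (∀ A, 0 ≤ σ A) ∧
      (∀ A x y, |b A x - b A y| ^ p ≤ σ A * dist x y ^ p) ∧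
      ∑ A, w A * σ A ≤ 2 / ε * Λ ^ p * (8 * 4 ^ (J * T)) ^ p * (l ^ p + (2 * p) ^ p * exp 2) ∧
      ∀ x y, (1 - ε) * ∑ ω, μ ω * |piece J T (h ω) s j x - piece J T (h ω) s j y| ^ p ≤
          ∑ A, w A * |b A x - b A y| ^ p ∧
        ∑ A, w A * |b A x - b A y| ^ p ≤
          exp (2 ^ p * ε) * ∑ ω, μ ω * |piece J T (h ω) s j x - piece J T (h ω) s j y| ^ p := by
  classical
  set t := tl ((j + 1) * (J * T)) with ht
  have ht0 : 0 < t := tl_pos _
  have ht2 : 1 ≤ 2 / t := by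
    rw [le_div_iff₀ ht0, one_mul, ← tl_zero]; exact tl_anti (Nat.zero_le _)
  have hΛp : 0 < Λ ^ p := rpow_pos_of_pos hΛ0 p
  obtain ⟨w, b, σ, h1, h2, h3, h4, h5⟩ := merge hp μ hμ (fun ω => piece J T (h ω) s j)
    (L := 2 * tl ((j - 1) * (J * T))) (N := (2 / t) ^ p * Λ ^ p)
    (by linarith [tl_pos ((j - 1) * (J * T))]) (by positivity) hε hε1 hl0 hl (by
      intro ω x y
      rw [piece_sub]
      have h1 := abs_win_le (T := T) hJ dist_nonneg (fun l => hh ω l x y) s j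
      have h2 := abs_win_le (T := T) hJ dist_nonneg (fun l => hh ω l x y) s (j + 1)
      have h3 : tl ((j + 1 - 1) * (J * T)) * dist x y ≤ tl ((j - 1) * (J * T)) * dist x y :=
        mul_le_mul_of_nonneg_right (tl_anti (Nat.mul_le_mul_right _ (by omega))) dist_nonneg
      refine (abs_sub _ _).trans ?_
      linarith) (fun x ω => t < 2 * M ω x) (by
      intro ω x y hne
      by_contra hcon
      rw [not_or, not_lt, not_lt] at hcon
      apply hne
      have hg' : ∀ l, t ≤ tl l → h ω l x - h ω l y = a ω x - a ω y := by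
        intro l hl
        rw [hh' ω l x (hcon.1.trans hl), hh' ω l y (hcon.2.trans hl)]
      rw [← sub_eq_zero, piece_sub, win_eq_of_good hJ hg' s.2 le_rfl,
        win_eq_of_good hJ hg' s.2 (tl_anti (Nat.mul_le_mul_right _ (Nat.le_succ j))), sub_self])
    (by
      intro x
      refine le_trans ?_ (mul_le_mul_of_nonneg_left (hΛ x) (by positivity))
      rw [mul_sum]
      apply sum_le_sum
      intro ω _
      have h1 := hM ω x
      have h2 := hμ ω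
      split_ifs with hact
      · rw [mul_left_comm, ← mul_rpow (by positivity) h1]
        apply le_mul_of_one_le_right h2
        apply one_le_rpow _ hp.le
        rw [div_mul_eq_mul_div, le_div_iff₀ ht0]
        linarith
      · positivity)
    (fun ω => (hμΛ ω).trans (le_mul_of_one_le_left hΛp.le (one_le_rpow ht2 hp.le)))
  refine ⟨w, b, σ, h1, h2, h3, h4.trans ?_, h5⟩
  have h6 : (2 / t) ^ p * (2 * (2 * tl ((j - 1) * (J * T)))) ^ p ≤ (8 * 4 ^ (J * T)) ^ p := by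
    have := tl_pos ((j - 1) * (J * T))
    rw [← mul_rpow (by positivity) (by positivity)]
    apply rpow_le_rpow (by positivity) _ hp.le
    rw [div_mul_eq_mul_div, div_le_iff₀ ht0]
    linarith [tl_ratio j (J * T)]
  calc _ = 2 / ε * Λ ^ p * ((2 / t) ^ p * (2 * (2 * tl ((j - 1) * (J * T)))) ^ p) *
        (l ^ p + (2 * p) ^ p * exp 2) := by ring
    _ ≤ _ := by gcongr

lemma arith_QQ {ε d u v : ℝ} (hε : 0 < ε) (hε1 : ε ≤ 1 / 10) (hd : 0 ≤ d)
    (h1 : u ≤ (1 + 2 * ε) * d) (h2 : (1 - 3 * ε) * d ≤ (1 + ε) * u) (h7 : (1 - ε) * u ≤ v)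
    (h8 : v ≤ (1 + ε) * u) : (1 - 5 * ε) * d ≤ v ∧ v ≤ (1 + 4 * ε) * d := by
  constructor
  · refine le_trans ?_ h7
    have h9 : (1 + ε) * ((1 - 5 * ε) * d) ≤ (1 + ε) * ((1 - ε) * u) := by
      have h10 := mul_le_mul_of_nonneg_left h2 (show 0 ≤ 1 - ε by linarith)
      have h11 : 0 ≤ ε * ε * d := by positivity
      nlinarith
    exact le_of_mul_le_mul_left h9 (by linarith)
  · refine h8.trans ?_
    have h10 := mul_le_mul_of_nonneg_left h1 (show 0 ≤ 1 + ε by linarith)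
    have h11 : 0 ≤ ε * (1 - 2 * ε) * d := mul_nonneg (mul_nonneg hε.le (by linarith)) hd
    nlinarith

lemma core_explicit {p Λ η ε : ℝ} (hp : 1 ≤ p) (hΛ1 : 1 ≤ Λ) (hη : 0 < η) (hε : 0 < ε)
    (hε1 : ε ≤ 1 / 10) (hηε : (1 + η) ^ p ≤ 1 + ε) {J T K : ℕ} (hJ : 0 < J) (hT : 1 / ε ≤ T)
    (a M : Ω → X → ℝ) (hM : ∀ ω x, 0 ≤ M ω x)
    (ha : ∀ ω x y, |a ω x - a ω y| ≤ dist x y * (M ω x + M ω y))
    (hd : ∀ x y, ∑ ω, |a ω x - a ω y| ^ p = dist x y ^ p) (hΛ : ∀ x, ∑ ω, M ω x ^ p ≤ Λ ^ p)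
    (hn : log (Fintype.card X) ≤ exp Λ)
    (hJΛ : (1 + 1 / η) ^ p * (2 * (8 / J) ^ p * Λ ^ p) ≤ ε)
    (hK : Fintype.card X * Λ ^ p * tl (K * (J * T)) ^ p ≤ ε) {S : ℝ} (hS1 : 1 ≤ S)
    (hS : (K + 1) * (2 / (log (1 + ε) / 2 ^ p) * Λ ^ p * (8 * 4 ^ (J * T)) ^ p *
      ((2 * exp Λ) ^ p + (2 * p) ^ p * exp 2)) ≤ S)
    (D : ℕ) (hD0 : 0 < D) (hD : 8 * S * log (2 * Fintype.card (X × X)) / ε ^ 2 ≤ D) :
    ∃ c : Fin D → X → ℝ, ∀ x y, (1 - 6 * ε) * dist x y ^ p ≤ ∑ β, |c β x - c β y| ^ p ∧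
      ∑ β, |c β x - c β y| ^ p ≤ (1 + 6 * ε) * dist x y ^ p := by
  classical
  have hp0 : 0 < p := by linarith
  have hT0 : (0 : ℝ) < T := lt_of_lt_of_le (by positivity) hT
  obtain ⟨μ, a', M', hμ, hM', hM1, ha', hμa, hΛ', hμΛ, hμn⟩ := normalize hp0 a M hM ha hΛ
  choose h hh hh' using fun ω => exists_trunc (a' ω) (M' ω) (ha' ω)
  set ε' := log (1 + ε) / 2 ^ p with hε'
  have h2p : (1 : ℝ) ≤ 2 ^ p := one_le_rpow one_le_two hp0.le
  have hlog : 0 < log (1 + ε) := log_pos (by linarith)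
  have hε'0 : 0 < ε' := by positivity
  have hε'1 : ε' ≤ ε := by
    rw [hε', div_le_iff₀ (by positivity)]
    have := log_le_sub_one_of_pos (show 0 < 1 + ε by linarith)
    nlinarith
  have hexp : exp (2 ^ p * ε') = 1 + ε := by
    rw [hε', mul_div_cancel₀ _ (by positivity), exp_log (by linarith)]
  choose w b σ hw hσ0 hσ hwσ hQ using fun (k : Fin T × Fin (K + 1)) =>
    piece_merge (l := 2 * exp Λ) hp0 (by linarith) hε'0 (by linarith) (by positivity)
      (by linarith) hJ μ a' M' hμ hM' hΛ' hμΛ h hh hh' k.1 k.2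
  have hdec := decomp_bounds (K := K) hp hη hε hηε hJ hT μ a' M' hμ hM' hM1 ha'
    (by intro x y; simp only [hμa]; exact hd x y) hΛ' hμn hJΛ hK h hh hh'
  have hQQ : ∀ x y, (1 - 5 * ε) * dist x y ^ p ≤
      ∑ α : (Fin T × Fin (K + 1)) × (Ω → Bool), w α.1 α.2 / T * |b α.1 α.2 x - b α.1 α.2 y| ^ p ∧
      ∑ α : (Fin T × Fin (K + 1)) × (Ω → Bool), w α.1 α.2 / T * |b α.1 α.2 x - b α.1 α.2 y| ^ p
        ≤ (1 + 4 * ε) * dist x y ^ p := by
    intro x y
    obtain ⟨h1, h2⟩ := hdec x y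
    have hdp : 0 ≤ dist x y ^ p := rpow_nonneg dist_nonneg p
    have h3 : ∑ s ∈ range T, ∑ j ∈ range (K + 1), ∑ ω,
        μ ω * |piece J T (h ω) s j x - piece J T (h ω) s j y| ^ p =
        ∑ k : Fin T × Fin (K + 1), ∑ ω,
        μ ω * |piece J T (h ω) k.1 k.2 x - piece J T (h ω) k.1 k.2 y| ^ p := by
      rw [Fintype.sum_prod_type, ← Fin.sum_univ_eq_sum_range (fun s => ∑ j ∈ range (K + 1), ∑ ω,
        μ ω * |piece J T (h ω) s j x - piece J T (h ω) s j y| ^ p)]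
      apply sum_congr rfl
      intro s _
      rw [← Fin.sum_univ_eq_sum_range (fun j => ∑ ω,
        μ ω * |piece J T (h ω) s j x - piece J T (h ω) s j y| ^ p)]
    rw [h3] at h1 h2
    have h4 : ∑ α : (Fin T × Fin (K + 1)) × (Ω → Bool),
        w α.1 α.2 / T * |b α.1 α.2 x - b α.1 α.2 y| ^ p =
        (∑ k : Fin T × Fin (K + 1), ∑ A, w k A * |b k A x - b k A y| ^ p) / T := by
      rw [Fintype.sum_prod_type, sum_div]
      apply sum_congr rfl
      intro k _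
      rw [sum_div]
      apply sum_congr rfl
      intro A _
      ring
    rw [h4]
    have h5 := sum_le_sum fun k (_ : k ∈ univ) => (hQ k x y).1
    have h6 := sum_le_sum fun k (_ : k ∈ univ) => (hQ k x y).2
    rw [← mul_sum] at h5 h6
    rw [hexp] at h6
    set U := ∑ k : Fin T × Fin (K + 1), ∑ ω,
        μ ω * |piece J T (h ω) k.1 k.2 x - piece J T (h ω) k.1 k.2 y| ^ p with hU
    have hU0 : 0 ≤ U := sum_nonneg fun _ _ => sum_nonneg fun ω _ =>
      mul_nonneg (hμ ω) (by positivity)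
    set V := ∑ k : Fin T × Fin (K + 1), ∑ A, w k A * |b k A x - b k A y| ^ p with hV
    have h7 : (1 - ε) * (U / T) ≤ V / T := by
      rw [← mul_div_assoc]
      apply div_le_div_of_nonneg_right _ hT0.le
      exact (mul_le_mul_of_nonneg_right (sub_le_sub_left hε'1 1) hU0).trans h5
    have h8 : V / T ≤ (1 + ε) * (U / T) := by
      rw [← mul_div_assoc]
      exact div_le_div_of_nonneg_right h6 hT0.le
    exact arith_QQ hε hε1 hdp h1 h2 h7 h8
  obtain ⟨c, hc⟩ := sample (I := (Fin T × Fin (K + 1)) × (Ω → Bool)) hp0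
    (fun α => w α.1 α.2 / T) (fun α => div_nonneg (hw _ _) hT0.le) (fun α => b α.1 α.2)
    (fun α => σ α.1 α.2) (fun α => hσ0 _ _) (fun α => hσ _ _) hS1 (by
      refine le_trans ?_ hS
      rw [Fintype.sum_prod_type]
      simp only [div_mul_eq_mul_div (w _ _), ← sum_div]
      rw [div_le_iff₀ hT0]
      refine (sum_le_sum fun k _ => hwσ k).trans (le_of_eq ?_)
      rw [sum_const, card_univ, nsmul_eq_mul]
      simp only [Fintype.card_prod, Fintype.card_fin, Nat.cast_mul, Nat.cast_add, Nat.cast_one]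
      ring) hε (by linarith) (by
      intro x y
      refine (hQQ x y).2.trans (mul_le_mul_of_nonneg_right (by linarith) ?_)
      exact rpow_nonneg dist_nonneg p) D hD0 hD
  refine ⟨c, fun x y => ?_⟩
  have h1 := abs_le.1 (hc x y)
  have h2 := hQQ x y
  have hdp : 0 ≤ ε * dist x y ^ p := mul_nonneg hε.le (rpow_nonneg dist_nonneg p)
  constructor <;> linarith [h1.1, h1.2, h2.1, h2.2]

end Vale.Agent.P249
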