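import Vale.Agent.P249.Core

namespace Vale.Agent.P249

open Finset Real

lemma le_exp_mul {c Λ : ℝ} (hc : 0 ≤ c) (hΛ : 1 ≤ Λ) : c ≤ exp (c * Λ) := by
  have := add_one_le_exp (c * Λ)
  nlinarith

lemma rpow_le_exp_mul {x y p : ℝ} (hx : 0 ≤ x) (hp : 0 ≤ p) (h : x ≤ exp y) :
    x ^ p ≤ exp (p * y) := by
  rw [mul_comm, exp_mul]
  exact rpow_le_rpow hx h hp

lemma le_exp_self (x : ℝ) : x ≤ exp x := by linarith [add_one_le_exp x]

theorem core {p ε : ℝ} (hp : 1 ≤ p) (hε : 0 < ε) (hε1 : ε ≤ 1 / 10) :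
    ∃ C : ℝ, 0 < C ∧ ∀ (X Ω : Type) [Fintype X] [Nonempty X] [MetricSpace X] [Fintype Ω]
      (a M : Ω → X → ℝ) (Λ : ℝ), 1 ≤ Λ → (∀ ω x, 0 ≤ M ω x) →
      (∀ ω x y, |a ω x - a ω y| ≤ dist x y * (M ω x + M ω y)) →
      (∀ x y, ∑ ω, |a ω x - a ω y| ^ p = dist x y ^ p) → (∀ x, ∑ ω, M ω x ^ p ≤ Λ ^ p) →
      log (Fintype.card X) ≤ exp Λ → ∀ D : ℕ, exp (C * Λ) ≤ D →
      ∃ c : Fin D → X → ℝ, ∀ x y, (1 - 6 * ε) * dist x y ^ p ≤ ∑ β, |c β x - c β y| ^ p ∧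
        ∑ β, |c β x - c β y| ^ p ≤ (1 + 6 * ε) * dist x y ^ p := by
  have hp0 : 0 < p := by linarith
  obtain ⟨η, hη⟩ : ∃ η, η = (1 + ε) ^ (1 / p) - 1 := ⟨_, rfl⟩
  have hη0 : 0 < η := hη ▸ sub_pos.2 (one_lt_rpow (by linarith) (by positivity))
  have hηε : (1 + η) ^ p ≤ 1 + ε := by
    rw [hη, add_sub_cancel, ← rpow_mul (by linarith), one_div_mul_cancel hp0.ne', rpow_one]
  obtain ⟨κ, hκ⟩ : ∃ κ, κ = (1 + 1 / η) ^ p := ⟨_, rfl⟩
  have hκ0 : 0 < κ := by rw [hκ]; positivity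
  obtain ⟨c1, hc1⟩ : ∃ c1, c1 = 8 * (2 * κ / ε) ^ (1 / p) := ⟨_, rfl⟩
  have hc10 : 0 < c1 := by rw [hc1]; positivity
  obtain ⟨T, hT⟩ : ∃ T, T = ⌈1 / ε⌉₊ := ⟨_, rfl⟩
  obtain ⟨c2, hc2⟩ : ∃ c2, c2 = 2 * (1 + p + 2 / ε) := ⟨_, rfl⟩
  have hc20 : 0 < c2 := by rw [hc2]; positivity
  have hlog : 0 < log (1 + ε) := log_pos (by linarith)
  obtain ⟨c3, hc3⟩ : ∃ c3, c3 = 2 / (log (1 + ε) / 2 ^ p) := ⟨_, rfl⟩
  have hc30 : 0 < c3 := by rw [hc3]; positivity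
  obtain ⟨c4, hc4⟩ : ∃ c4, c4 = 2 ^ p + (2 * p) ^ p * exp 2 := ⟨_, rfl⟩
  have hc40 : 0 < c4 := by rw [hc4]; positivity
  obtain ⟨C1, hC1⟩ : ∃ C1, C1 = (c2 + 2) + 1 + (c3 + p + p * (8 + 2 * (c1 + 1) * T) + (c4 + p)) := ⟨_, rfl⟩
  have hC10 : 0 < C1 := by rw [hC1]; positivity
  refine ⟨24 / ε ^ 2 + 1 + C1, by positivity, ?_⟩
  intro X Ω _ _ _ _ a M Λ hΛ1 hM ha hd hΛ hn D hD
  have hΛ0 : 0 < Λ := by linarith
  have hE1 : 1 ≤ exp Λ := one_le_exp hΛ0.le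
  have hn0 : (0 : ℝ) < Fintype.card X := by exact_mod_cast Fintype.card_pos
  obtain ⟨J, hJ⟩ : ∃ J, J = ⌈c1 * Λ⌉₊ := ⟨_, rfl⟩
  have hJ0 : 0 < J := hJ ▸ Nat.ceil_pos.2 (by positivity)
  have hJ1 : c1 * Λ ≤ J := hJ ▸ Nat.le_ceil _
  have hJ2 : (J : ℝ) ≤ (c1 + 1) * Λ := by
    have := (Nat.ceil_lt_add_one (show 0 ≤ c1 * Λ by positivity)).le
    rw [hJ]
    linarith
  have hT0 : 0 < T := hT ▸ Nat.ceil_pos.2 (by positivity)
  have hT1 : 1 / ε ≤ T := hT ▸ Nat.le_ceil _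
  obtain ⟨K, hK⟩ : ∃ K, K = ⌈c2 * exp Λ⌉₊ := ⟨_, rfl⟩
  have hK0 : 0 < K := hK ▸ Nat.ceil_pos.2 (by positivity)
  have hK1 : c2 * exp Λ ≤ K := hK ▸ Nat.le_ceil _
  have hK2 : (K : ℝ) + 1 ≤ (c2 + 2) * exp Λ := by
    have := (Nat.ceil_lt_add_one (show 0 ≤ c2 * exp Λ by positivity)).le
    rw [hK]
    linarith
  have hΛp : Λ ^ p ≤ exp (p * Λ) := rpow_le_exp_mul hΛ0.le hp0.le (le_exp_self Λ)
  have hD0 : 0 < D := by
    have : (0 : ℝ) < D := lt_of_lt_of_le (exp_pos _) hD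
    exact_mod_cast this
  refine core_explicit (K := K) (S := exp (C1 * Λ)) hp hΛ1 hη0 hε hε1 hηε hJ0 hT1
    a M hM ha hd hΛ hn ?_ ?_ (one_le_exp (by positivity)) ?_ D hD0 (le_trans ?_ hD)
  · have hJ' : (0 : ℝ) < J := by exact_mod_cast hJ0
    have h1 : (8 / J : ℝ) ^ p * Λ ^ p ≤ ε / (2 * κ) := by
      rw [← mul_rpow (by positivity) hΛ0.le]
      have h2 : 8 / J * Λ ≤ (ε / (2 * κ)) ^ (1 / p) := by
        rw [← inv_div (2 * κ), inv_rpow (by positivity), div_mul_eq_mul_div, div_le_iff₀ hJ',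
          inv_mul_eq_div, le_div_iff₀ (by positivity)]
        rw [hc1] at hJ1
        linarith
      refine (rpow_le_rpow (by positivity) h2 hp0.le).trans (le_of_eq ?_)
      rw [← rpow_mul (by positivity), one_div_mul_cancel hp0.ne', rpow_one]
    rw [le_div_iff₀ (by positivity)] at h1
    rw [← hκ]
    linarith
  · have h1 : tl (K * (J * T)) ≤ tl K :=
      tl_anti (Nat.le_mul_of_pos_right _ (Nat.mul_pos hJ0 hT0))
    have h2 : tl K ≤ 1 := (tl_anti hK0).trans (by norm_num [tl])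
    have h3 : tl (K * (J * T)) ^ p ≤ tl K :=
      (rpow_le_self_of_le_one (tl_pos _).le (h1.trans h2) hp).trans h1
    have h4 : (Fintype.card X : ℝ) ≤ exp (exp Λ) := by
      rw [← exp_log hn0]; exact exp_le_exp.2 hn
    have h5 : Λ ^ p ≤ exp (p * exp Λ) := rpow_le_exp_mul hΛ0.le hp0.le
      ((le_exp_self Λ).trans (le_exp_self _))
    have h6 : 2 / ε ≤ exp (2 / ε * exp Λ) := le_exp_mul (by positivity) hE1
    have h7 : exp (K / 2) ≤ 2 ^ K := by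
      rw [div_eq_mul_inv, exp_nat_mul]
      apply pow_le_pow_left₀ (exp_pos _).le
      rw [← exp_log (show (0 : ℝ) < 2 by norm_num), exp_le_exp, exp_log (by norm_num)]
      linarith [log_two_gt_d9]
    have h8 : Fintype.card X * Λ ^ p * (2 / ε) ≤ 2 ^ K := by
      refine le_trans ?_ h7
      calc _ ≤ exp (exp Λ) * exp (p * exp Λ) * exp (2 / ε * exp Λ) := by gcongr
        _ ≤ _ := by
          rw [← exp_add, ← exp_add, exp_le_exp]
          rw [hc2] at hK1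
          linarith
    calc _ ≤ Fintype.card X * Λ ^ p * tl K := by gcongr
      _ = Fintype.card X * Λ ^ p * (2 / ε) * (ε / 2 ^ K) := by unfold tl; field_simp
      _ ≤ 2 ^ K * (ε / 2 ^ K) := by gcongr
      _ = ε := by field_simp
  · have h1 : (K : ℝ) + 1 ≤ exp ((c2 + 2) * Λ) * exp Λ :=
      hK2.trans (mul_le_mul_of_nonneg_right (le_exp_mul (by positivity) hΛ1) (exp_pos _).le)
    have h2 : c3 ≤ exp (c3 * Λ) := le_exp_mul hc30.le hΛ1
    have h3 : (8 * 4 ^ (J * T) : ℝ) ^ p ≤ exp (p * ((8 + 2 * (c1 + 1) * T) * Λ)) := by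
      apply rpow_le_exp_mul (by positivity) hp0.le
      have h4 : (4 : ℝ) ≤ exp 2 := by
        have := add_one_le_exp (1 : ℝ)
        rw [show (2 : ℝ) = 1 + 1 by norm_num, exp_add]
        nlinarith
      calc (8 * 4 ^ (J * T) : ℝ) ≤ exp 8 * exp 2 ^ (J * T) := by
            gcongr; exact le_exp_self 8
        _ ≤ _ := by
            rw [← exp_nat_mul, ← exp_add, exp_le_exp]
            push_cast
            have := mul_le_mul_of_nonneg_right hJ2 (Nat.cast_nonneg T : (0 : ℝ) ≤ T)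
            linarith
    have h5 : (2 * exp Λ) ^ p + (2 * p) ^ p * exp 2 ≤ exp (c4 * Λ) * exp (p * Λ) := by
      refine le_trans ?_ (mul_le_mul_of_nonneg_right (le_exp_mul hc40.le hΛ1) (exp_pos _).le)
      rw [mul_rpow zero_le_two (exp_pos _).le, ← exp_mul, mul_comm Λ p, hc4, add_mul]
      have h6 : 1 ≤ exp (p * Λ) := one_le_exp (by positivity)
      have h7 : 0 ≤ (2 * p) ^ p * exp 2 := by positivity
      linarith [le_mul_of_one_le_right h7 h6]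
    rw [← hc3]
    calc _ ≤ exp ((c2 + 2) * Λ) * exp Λ * (exp (c3 * Λ) * exp (p * Λ) *
          exp (p * ((8 + 2 * (c1 + 1) * T) * Λ)) * (exp (c4 * Λ) * exp (p * Λ))) := by gcongr
      _ = _ := by
          simp only [← exp_add]
          congr 1
          rw [hC1]; ring
  · have h1 : log (2 * Fintype.card (X × X)) ≤ 3 * exp Λ := by
      rw [Fintype.card_prod, Nat.cast_mul, log_mul (by norm_num) (by positivity),
        log_mul hn0.ne' hn0.ne']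
      linarith [log_two_lt_d9]
    have h2 : 24 / ε ^ 2 ≤ exp (24 / ε ^ 2 * Λ) := le_exp_mul (by positivity) hΛ1
    calc _ ≤ 8 * exp (C1 * Λ) * (3 * exp Λ) / ε ^ 2 := by gcongr
      _ = 24 / ε ^ 2 * exp Λ * exp (C1 * Λ) := by ring
      _ ≤ exp (24 / ε ^ 2 * Λ) * exp Λ * exp (C1 * Λ) := by gcongr
      _ = _ := by
          simp only [← exp_add]
          congr 1
          ring

end Vale.Agent.P249
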