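import Mathlib

namespace Vale.Agent.P249

open MeasureTheory

universe u

/-- The norm of `ℓ_p^d`. -/
noncomputable def lpNorm (p : ℝ) {d : ℕ} (y : Fin d → ℝ) : ℝ := (∑ k, |y k| ^ p) ^ (1 / p)

/-- The finite set `S`, with the distance `ρ`, admits a map into `ℓ_p^d` with distortion at
most `D`. -/
def MapsInto {X : Type u} (ρ : X → X → ℝ) (S : Finset X) (p D : ℝ) (d : ℕ) : Prop :=
  ∃ (f : S → Fin d → ℝ) (s : ℝ), 0 < s ∧ ∀ x y : S,
    s * ρ x y ≤ lpNorm p (f x - f y) ∧ lpNorm p (f x - f y) ≤ D * s * ρ x y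

/-- The distance of the real space `L_p(μ)`. -/
noncomputable def lpDist (p : ℝ) {α : Type u} [MeasurableSpace α] (μ : Measure α)
    (x y : Lp ℝ (ENNReal.ofReal p) μ) : ℝ := ‖x - y‖

/-- Every `n`-point subset of every real `L_p(μ)` space admits a map into `ℓ_p^d` with
distortion at most `D`. -/
def Embeds (p D : ℝ) (n d : ℕ) : Prop :=
  ∀ (α : Type u) [MeasurableSpace α] (μ : Measure α) (S : Finset (Lp ℝ (ENNReal.ofReal p) μ)),
    S.card = n → MapsInto (lpDist p μ) S p D d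

/-- The least dimension `d_p(n, D)`. -/
noncomputable def dimP (p D : ℝ) (n : ℕ) : ℕ := sInf {d | Embeds.{u} p D n d}

end Vale.Agent.P249
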