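import Vale.Agent.P249.Iter
import Vale.Agent.P249.Defs

namespace Vale.Agent.P249

open Finset Real MeasureTheory

universe u

lemma approx {p η : ℝ} (hp : 1 ≤ p) (hη : 0 < η) {α : Type u} [MeasurableSpace α] (μ : Measure α)
    {n : ℕ} (x : Fin n → Lp ℝ (ENNReal.ofReal p) μ) :
    ∃ (R : Finset (Fin n → ℝ)) (a : R → Fin n → ℝ), ∀ i j,
      |(∑ ω, |a ω i - a ω j| ^ p) ^ (1 / p) - ‖x i - x j‖| ≤ η := by
  have hp0 : 0 < p := by linarith
  have : Fact (1 ≤ ENNReal.ofReal p) := ⟨by simpa using hp⟩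
  have hq0 : ENNReal.ofReal p ≠ 0 := by simpa using hp0
  have hq1 : ENNReal.ofReal p ≠ ⊤ := ENNReal.ofReal_ne_top
  have hG : MemLp (fun t i => x i t) (ENNReal.ofReal p) μ :=
    memLp_pi_iff.2 fun i => Lp.memLp (x i)
  obtain ⟨F, hF1, hF2⟩ := hG.exists_simpleFunc_eLpNorm_sub_lt hq1
    (ε := ENNReal.ofReal (η / 2)) (by simpa using hη)
  have hFi : Integrable F μ := (SimpleFunc.memLp_iff_integrable hq0 hq1).1 hF2
  refine ⟨F.range, fun ω i => μ.real (F ⁻¹' {ω.1}) ^ (1 / p) * ω.1 i, fun i j => ?_⟩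
  have hs : ∀ i, MemLp (fun t => F t i) (ENNReal.ofReal p) μ := fun i => hF2.eval i
  have h1 : ∀ i, ‖x i - (hs i).toLp _‖ ≤ η / 2 := by
    intro i
    rw [← Lp.toLp_coeFn (x i) (Lp.memLp _), ← MemLp.toLp_sub, Lp.norm_toLp]
    apply ENNReal.toReal_le_of_le_ofReal (by positivity)
    refine le_trans (eLpNorm_mono fun t => ?_) hF1.le
    exact norm_le_pi_norm (((fun t i => x i t) - ⇑F : α → Fin n → ℝ) t) i
  have h2 : ‖(hs i).toLp _ - (hs j).toLp _‖ = (∑ ω : F.range,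
      |μ.real (F ⁻¹' {ω.1}) ^ (1 / p) * ω.1 i - μ.real (F ⁻¹' {ω.1}) ^ (1 / p) * ω.1 j| ^ p) ^
        (1 / p) := by
    rw [← MemLp.toLp_sub, Lp.norm_toLp,
      MemLp.eLpNorm_eq_integral_rpow_norm hq0 hq1 ((hs i).sub (hs j)),
      ENNReal.toReal_ofReal (by positivity), ENNReal.toReal_ofReal hp0.le, one_div]
    congr 1
    have hg : (fun v : Fin n → ℝ => |v i - v j| ^ p) 0 = 0 := by simp [zero_rpow hp0.ne']
    have h3 := SimpleFunc.map_integral F (fun v : Fin n → ℝ => |v i - v j| ^ p) hFi hg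
    rw [SimpleFunc.integral_eq_integral _ (SimpleFunc.integrable_iff_finMeasSupp.2
      ((SimpleFunc.integrable_iff_finMeasSupp.1 hFi).map hg))] at h3
    refine Eq.trans h3 ?_
    rw [← sum_coe_sort]
    apply sum_congr rfl
    intro ω _
    have h4 : 0 ≤ μ.real (F ⁻¹' {ω.1}) := measureReal_nonneg
    rw [← mul_sub, abs_mul, mul_rpow (abs_nonneg _) (abs_nonneg _),
      abs_of_nonneg (rpow_nonneg h4 _), ← rpow_mul h4, inv_mul_cancel₀ hp0.ne', rpow_one,
      smul_eq_mul]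
  rw [← h2]
  refine (abs_norm_sub_norm_le _ _).trans ?_
  calc _ = ‖(x j - (hs j).toLp _) - (x i - (hs i).toLp _)‖ := by congr 1; abel
    _ ≤ _ := (norm_sub_le _ _).trans (by linarith [h1 i, h1 j])

theorem embeds_main {p D γ : ℝ} (hp : 1 ≤ p) (hD : 1 < D) (h1 : 1 / 2 < γ) (h2 : 1 / p < γ) :
    ∃ C : ℝ, 0 < C ∧ ∀ n d : ℕ, 0 < n → exp (C * (1 + log n) ^ γ) ≤ d → Embeds.{u} p D n d := by
  have hp0 : 0 < p := by linarith
  have : Fact (1 ≤ ENNReal.ofReal p) := ⟨by simpa using hp⟩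
  obtain ⟨t, ht⟩ : ∃ t, t = (D - 1) / (3 + 2 * D) := ⟨_, rfl⟩
  have ht0 : 0 < t := by rw [ht]; exact div_pos (by linarith) (by linarith)
  have ht1 : t * (3 + 2 * D) = D - 1 := by rw [ht]; field_simp
  have ht2 : t ≤ 1 / 2 := by nlinarith
  have ht3 : (1 + t) * (1 + t) ≤ D * ((1 - t) * (1 - t)) := by nlinarith
  obtain ⟨C, hC, hmain⟩ := finite_main (ε := t / 6) hp (by positivity) (by linarith) h1 h2
  refine ⟨C, hC, fun n d hn hd α _ μ S hS => ?_⟩
  have : Nonempty (Fin n) := ⟨⟨0, hn⟩⟩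
  let e := S.equivFinOfCardEq hS
  let x : Fin n → Lp ℝ (ENNReal.ofReal p) μ := fun i => (e.symm i).1
  have hx : Function.Injective x := Subtype.val_injective.comp e.symm.injective
  obtain ⟨b, hb⟩ := Finite.exists_le (fun k : Fin n × Fin n => ‖x k.1 - x k.2‖⁻¹)
  have hb1 : ∀ i j, i ≠ j → (|b| + 1)⁻¹ ≤ ‖x i - x j‖ := by
    intro i j hij
    apply inv_le_of_inv_le₀ (norm_pos_iff.2 (sub_ne_zero.2 (hx.ne hij)))
    linarith [hb (i, j), le_abs_self b]
  obtain ⟨R, a, ha⟩ := approx hp (show 0 < t * (|b| + 1)⁻¹ by positivity) μ x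
  have ha' : ∀ i j, (1 - t) * ‖x i - x j‖ ≤ (∑ ω, |a ω i - a ω j| ^ p) ^ (1 / p) ∧
      (∑ ω, |a ω i - a ω j| ^ p) ^ (1 / p) ≤ (1 + t) * ‖x i - x j‖ := by
    intro i j
    rcases eq_or_ne i j with rfl | hij
    · simp [zero_rpow hp0.ne', hp0.ne']
    · have h3 := abs_le.1 (ha i j)
      have h4 := mul_le_mul_of_nonneg_left (hb1 i j hij) ht0.le
      constructor <;> linarith [h3.1, h3.2]
  let g : Fin n → PiLp (ENNReal.ofReal p) (fun _ : R => ℝ) := fun i =>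
    WithLp.toLp _ fun ω => a ω i
  have hg : ∀ i j, dist (g i) (g j) = (∑ ω, |a ω i - a ω j| ^ p) ^ (1 / p) := by
    intro i j
    rw [PiLp.dist_eq_sum (by rwa [ENNReal.toReal_ofReal hp0.le]), ENNReal.toReal_ofReal hp0.le]
    rfl
  have hgi : Function.Injective g := by
    intro i j hij
    by_contra hne
    have h3 := (ha' i j).1
    rw [← hg, hij, dist_self] at h3
    have h4 := norm_pos_iff.2 (sub_ne_zero.2 (hx.ne hne))
    nlinarith
  let : MetricSpace (Fin n) := MetricSpace.induced g hgi inferInstance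
  have hdist : ∀ i j : Fin n, dist i j = (∑ ω, |a ω i - a ω j| ^ p) ^ (1 / p) := hg
  obtain ⟨c, hc⟩ := hmain (Fin n) R a (fun i j => by
    rw [hdist, ← rpow_mul (by positivity), one_div_mul_cancel hp0.ne', rpow_one]) d
    (by rwa [Fintype.card_fin])
  refine ⟨fun y β => c β (e y), (1 - t) * (1 - t), by nlinarith, fun y z => ?_⟩
  obtain ⟨h3, h4⟩ := hc (e y) (e z)
  obtain ⟨h5, h6⟩ := ha' (e y) (e z)
  rw [← hdist] at h5 h6
  simp only [x, Equiv.symm_apply_apply] at h5 h6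
  rw [mul_div_cancel₀ _ (by norm_num)] at h3 h4
  have hd0 : 0 ≤ dist (e y) (e z) := dist_nonneg
  have hp1 : 1 / p ≤ 1 := by rw [div_le_one hp0]; exact hp
  have h7 := rpow_le_rpow (mul_nonneg (by linarith) (by positivity)) h3
    (show 0 ≤ 1 / p by positivity)
  have h8 := rpow_le_rpow (by positivity) h4 (show 0 ≤ 1 / p by positivity)
  rw [mul_rpow (by linarith) (by positivity), ← rpow_mul hd0, mul_one_div_cancel hp0.ne',
    rpow_one] at h7 h8
  have h9 : 1 - t ≤ (1 - t) ^ (1 / p) := by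
    simpa using rpow_le_rpow_of_exponent_ge (show 0 < 1 - t by linarith) (by linarith) hp1
  have h10 : (1 + t) ^ (1 / p) ≤ 1 + t := by
    simpa using rpow_le_rpow_of_exponent_le (show 1 ≤ 1 + t by linarith) hp1
  have hn0 := norm_nonneg (y.1 - z.1)
  unfold lpDist
  constructor
  · refine le_trans ?_ h7
    rw [mul_assoc]
    exact mul_le_mul h9 h5 (mul_nonneg (by linarith) hn0) (rpow_nonneg (by linarith) _)
  · refine h8.trans ((mul_le_mul h10 h6 hd0 (by linarith)).trans ?_)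
    rw [← mul_assoc]
    exact mul_le_mul_of_nonneg_right ht3 hn0

theorem dimP_spec {p D : ℝ} (hp : 1 < p) (hD : 1 < D) {n : ℕ} (hn : 0 < n) :
    Embeds.{u} p D n (dimP.{u} p D n) := by
  obtain ⟨C, _, h⟩ := embeds_main.{u} (γ := 1) hp.le hD (by norm_num)
    (by rw [div_lt_one (by linarith)]; exact hp)
  exact Nat.sInf_mem (s := {d | Embeds.{u} p D n d}) ⟨_, h n _ hn (Nat.le_ceil _)⟩

theorem dimP_le {p D γ : ℝ} (hp : 1 < p) (hD : 1 < D) (h : max (1 / 2) (1 / p) < γ) :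
    ∃ C : ℝ, 0 < C ∧ ∀ n : ℕ, 2 ≤ n → (dimP.{u} p D n : ℝ) ≤ exp (C * log n ^ γ) := by
  obtain ⟨h1, h2⟩ := max_lt_iff.1 h
  have hγ : 0 < γ := by linarith
  obtain ⟨C, hC, h⟩ := embeds_main.{u} hp.le hD h1 h2
  refine ⟨(C + 1) * 3 ^ γ, by positivity, fun n hn => ?_⟩
  have h3 : dimP.{u} p D n ≤ ⌈exp (C * (1 + log n) ^ γ)⌉₊ :=
    Nat.sInf_le (h n _ (by omega) (Nat.le_ceil _))
  have h4 : log 2 ≤ log n := log_le_log two_pos (by exact_mod_cast hn)
  have h5 : 1 + log n ≤ 3 * log n := by linarith [log_two_gt_d9]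
  have hl := one_le_ell n
  have h6 : (1 + log n) ^ γ ≤ 3 ^ γ * log n ^ γ := by
    rw [← mul_rpow (by norm_num) (log_natCast_nonneg n)]
    exact rpow_le_rpow (by linarith) h5 hγ.le
  have h7 : 1 ≤ (1 + log n) ^ γ := one_le_rpow hl hγ.le
  have h8 : 1 ≤ exp (C * (1 + log n) ^ γ) := one_le_exp (by positivity)
  calc (dimP.{u} p D n : ℝ) ≤ ⌈exp (C * (1 + log n) ^ γ)⌉₊ := by exact_mod_cast h3
    _ ≤ exp (C * (1 + log n) ^ γ) + 1 := (Nat.ceil_lt_add_one (exp_pos _).le).le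
    _ ≤ exp (C * (1 + log n) ^ γ) * exp 1 := by nlinarith [add_one_le_exp (1 : ℝ)]
    _ ≤ _ := by
      rw [← exp_add, exp_le_exp, mul_assoc]
      nlinarith

open Filter Asymptotics in
theorem dimP_isLittleO {p D η : ℝ} (hp : 1 < p) (hD : 1 < D) (hη : 0 < η) :
    (fun n : ℕ => (dimP.{u} p D n : ℝ)) =o[atTop] fun n : ℕ => (n : ℝ) ^ η := by
  obtain ⟨γ, h1, h2⟩ := exists_between (max_lt (show (1 : ℝ) / 2 < 1 by norm_num)
    (show 1 / p < 1 by rw [div_lt_one (by linarith)]; exact hp))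
  obtain ⟨C, hC, h⟩ := dimP_le.{u} hp hD h1
  rw [isLittleO_iff]
  intro c hc
  have t1 : Tendsto (fun n : ℕ => log n ^ (1 - γ)) atTop atTop :=
    (tendsto_rpow_atTop (by linarith)).comp (tendsto_log_atTop.comp tendsto_natCast_atTop_atTop)
  have t2 : Tendsto (fun n : ℕ => (n : ℝ) ^ (η / 2)) atTop atTop :=
    (tendsto_rpow_atTop (by linarith)).comp tendsto_natCast_atTop_atTop
  filter_upwards [t1.eventually_ge_atTop (C / (η / 2)), t2.eventually_ge_atTop (1 / c),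
    eventually_ge_atTop 2] with n h3 h4 h5
  have hn0 : (0 : ℝ) < n := by exact_mod_cast (show 0 < n by omega)
  have hl : 0 < log n := log_pos (by exact_mod_cast (show 1 < n by omega))
  rw [norm_of_nonneg (by positivity), norm_of_nonneg (by positivity)]
  refine (h n h5).trans ?_
  have h6 : C * log n ^ γ ≤ log n * (η / 2) := by
    rw [div_le_iff₀ (by positivity)] at h3
    have h7 : log n ^ (1 - γ) * log n ^ γ = log n := by
      rw [← rpow_add hl, sub_add_cancel, rpow_one]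
    have := mul_le_mul_of_nonneg_right h3 (rpow_nonneg hl.le γ)
    calc _ ≤ _ := this
      _ = log n ^ (1 - γ) * log n ^ γ * (η / 2) := by ring
      _ = _ := by rw [h7]
  refine (exp_le_exp.2 h6).trans ?_
  rw [← rpow_def_of_pos hn0]
  rw [div_le_iff₀ hc] at h4
  have h8 : (n : ℝ) ^ η = n ^ (η / 2) * n ^ (η / 2) := by rw [← rpow_add hn0, add_halves]
  rw [h8]
  have := rpow_nonneg hn0.le (η / 2)
  nlinarith

end Vale.Agent.P249
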