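import Vale.Agent.P249.Stage
import Vale.Agent.P249.Core2

namespace Vale.Agent.P249

open Finset Real

lemma tele_one (g : ℤ → ℝ) (hg : Monotone g) (h0 : ∀ k, 0 ≤ g k) (K : Finset ℤ) :
    ∀ b : ℤ, (∀ k ∈ K, k < b) → ∑ k ∈ K, (g (k + 1) - g k) ≤ g b := by
  induction K using Finset.induction_on_max with
  | empty => intro b _; simpa using h0 b
  | insert a s hs ih =>
    intro b hb
    have ha : a ∉ s := fun h => lt_irrefl _ (hs a h)
    rw [sum_insert ha]
    have h1 := ih a hs
    have h2 : g (a + 1) ≤ g b := hg (Int.add_one_le_of_lt (hb a (mem_insert_self _ _)))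
    linarith

lemma tele (g : ℤ → ℝ) (hg : Monotone g) (h0 : ∀ k, 0 ≤ g k) {G : ℝ} (h1 : ∀ k, g k ≤ G)
    (K : Finset ℤ) (j : ℕ) : ∑ k ∈ K, (g (k + j) - g k) ≤ j * G := by
  induction j with
  | zero => simp
  | succ j ih =>
    obtain ⟨b, hb⟩ := K.exists_le
    have h2 := tele_one (fun k => g (k + j)) (fun _ _ h => hg (by linarith)) (fun k => h0 _) K
      (b + 1) (fun k hk => Int.lt_add_one_of_le (hb k hk))
    have h3 : ∑ k ∈ K, (g (k + (j + 1 : ℕ)) - g k) =
        ∑ k ∈ K, (g (k + 1 + j) - g (k + j)) + ∑ k ∈ K, (g (k + j) - g k) := by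
      rw [← sum_add_distrib]
      apply sum_congr rfl
      intro k _
      rw [show k + ((j + 1 : ℕ) : ℤ) = k + 1 + j by push_cast; ring]
      ring
    rw [h3]
    push_cast
    have := h1 (b + 1 + j)
    beta_reduce at h2
    linarith

lemma geom_sum_two {d : ℝ} (hd : 0 ≤ d) (K : Finset ℤ) :
    ∑ k ∈ K, (if d ≤ 2 ^ k then d / 2 ^ k else 0) ≤ 2 := by
  have hmono : Monotone fun k : ℤ => 2 - 2 * min 1 (d / 2 ^ k) := by
    intro k l h
    have : d / 2 ^ l ≤ d / 2 ^ k :=
      div_le_div_of_nonneg_left hd (by positivity) (zpow_le_zpow_right₀ one_le_two h)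
    have := min_le_min_left 1 this
    beta_reduce
    linarith
  have h := tele _ hmono (fun k => by have := min_le_left 1 (d / 2 ^ k); linarith) (G := 2)
    (fun k => by
      have : 0 ≤ min 1 (d / 2 ^ k) := le_min zero_le_one (by positivity)
      linarith) K 1
  rw [Nat.cast_one, Nat.cast_one, one_mul] at h
  refine le_trans (sum_le_sum fun k _ => ?_) h
  split_ifs with hk
  · have h1 : d / 2 ^ k ≤ 1 := (div_le_one (by positivity)).2 hk
    have h2 : d / 2 ^ (k + 1) = d / 2 ^ k / 2 := by rw [zpow_add_one₀ two_ne_zero, div_div]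
    have h3 : 0 ≤ d / 2 ^ k := by positivity
    rw [min_eq_right h1, h2, min_eq_right (by linarith)]
    linarith
  · exact sub_nonneg.2 (hmono (by linarith))

lemma sum_rank_le {ι : Type} [DecidableEq ι] (f : ι → ℝ) (S : Finset ι) :
    ∑ u ∈ S, (1 : ℝ) / (S.filter fun v => f v ≤ f u).card ≤ harmonic S.card := by
  induction S using Finset.induction_on_max_value f with
  | empty => simp
  | insert a s ha hs ih =>
    rw [sum_insert ha, card_insert_of_notMem ha, harmonic_succ]
    have h1 : (insert a s).filter (fun v => f v ≤ f a) = insert a s := by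
      apply filter_true_of_mem
      intro v hv
      rcases mem_insert.1 hv with rfl | hv
      · exact le_rfl
      · exact hs v hv
    rw [h1, card_insert_of_notMem ha]
    have h2 : ∑ u ∈ s, (1 : ℝ) / ((insert a s).filter fun v => f v ≤ f u).card ≤
        ∑ u ∈ s, (1 : ℝ) / (s.filter fun v => f v ≤ f u).card := by
      apply sum_le_sum
      intro u hu
      apply one_div_le_one_div_of_le
      · exact Nat.cast_pos.2 (card_pos.2 ⟨u, mem_filter.2 ⟨hu, le_refl (f u)⟩⟩)
      · exact_mod_cast card_le_card (filter_subset_filter _ (subset_insert _ _))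
    push_cast
    rw [one_div]
    linarith

variable {X Ω : Type} [Fintype X] [Nonempty X] [MetricSpace X] [Fintype Ω]

omit [Nonempty X] in
lemma fball_mono (x : X) {r s : ℝ} (h : r ≤ s) : fball x r ⊆ fball x s :=
  fun _ hu => mem_fball.2 ((mem_fball.1 hu).trans h)

omit [Nonempty X] in
lemma card_fball_pos (x : X) {r : ℝ} (hr : 0 ≤ r) : (0 : ℝ) < (fball x r).card := by
  exact_mod_cast (fball_nonempty x hr).card_pos

omit [Nonempty X] in
lemma near_part {p A : ℝ} (hp : 1 ≤ p) (hA : 0 < A) (φ : ℤ → X → X → ℝ)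
    (hφ : ∀ k, Decay p A (2 ^ k) (φ k)) (K : Finset ℤ) (x : X) :
    ∑ k ∈ K, ∑ u, (if dist x u ≤ 2 ^ k then φ k x u * (dist x u / 2 ^ k) ^ p else 0) ≤
      8 * (1 + log (Fintype.card X)) := by
  classical
  rw [sum_comm]
  calc _ ≤ ∑ u, 8 * ((1 : ℝ) / (univ.filter fun v => dist x v ≤ dist x u).card) := by
        apply sum_le_sum
        intro u _
        have hN : (0 : ℝ) < (fball x (dist x u)).card := card_fball_pos x dist_nonneg
        have hfb : (univ.filter fun v => dist x v ≤ dist x u) = fball x (dist x u) := by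
          ext v; simp [mem_fball]
        rw [hfb]
        calc _ ≤ ∑ k ∈ K, 4 / (fball x (dist x u)).card *
              (if dist x u ≤ 2 ^ k then dist x u / 2 ^ k else 0) := by
              apply sum_le_sum
              intro k _
              split_ifs with hk
              · have h1 : dist x u / 2 ^ k ≤ 1 := (div_le_one (by positivity)).2 hk
                have h2 : 0 ≤ dist x u / 2 ^ k := by positivity
                have h3 : ((fball x (dist x u)).card : ℝ) ≤ (fball x (2 ^ k)).card := by
                  exact_mod_cast card_le_card (fball_mono x hk)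
                have h4 : exp (-(dist x u / 2 ^ k) ^ p / A) ≤ 1 := by
                  rw [exp_le_one_iff, neg_div, neg_nonpos]; positivity
                refine mul_le_mul ((hφ k x u).trans ?_) (rpow_le_self_of_le_one h2 h1 hp)
                  (by positivity) (by positivity)
                refine (mul_le_of_le_one_right (by positivity) h4).trans ?_
                gcongr
              · simp
          _ ≤ 4 / (fball x (dist x u)).card * 2 := by
              rw [← mul_sum]
              exact mul_le_mul_of_nonneg_left (geom_sum_two dist_nonneg K) (by positivity)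
          _ = _ := by ring
    _ ≤ _ := by
        rw [← mul_sum]
        have h1 := sum_rank_le (fun v => dist x v) (univ : Finset X)
        have h2 := harmonic_le_one_add_log (Fintype.card X)
        rw [card_univ] at h1
        linarith

omit [Nonempty X] in
lemma mid_part {p A r T : ℝ} (hA : 0 < A) (hr : 0 < r) (hT : r ≤ T) (φ : X → X → ℝ)
    (h0 : ∀ x u, 0 ≤ φ x u) (h1 : ∀ x, ∑ u, φ x u = 1) (hφ : Decay p A r φ) (x : X) :
    ∑ u, (if ¬ dist x u ≤ r ∧ dist x u ≤ T then φ x u * (dist x u / r) ^ p else 0) ≤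
      4 * A * (log (fball x T).card - log (fball x r).card) := by
  classical
  have hN := card_fball_pos x hr.le
  have hN' := card_fball_pos x (hr.le.trans hT)
  have hNN : ((fball x r).card : ℝ) ≤ (fball x T).card := by
    exact_mod_cast card_le_card (fball_mono x hT)
  obtain ⟨z, hz⟩ : ∃ z : X → ℝ, z = fun u =>
    if ¬ dist x u ≤ r ∧ dist x u ≤ T then (dist x u / r) ^ p / A else 0 := ⟨_, rfl⟩
  have hJ := convexOn_exp.map_sum_le (t := univ) (w := φ x) (p := z) (fun u _ => h0 x u) (h1 x)
    (fun _ _ => Set.mem_univ _)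
  simp only [smul_eq_mul] at hJ
  have h2 : ∑ u, φ x u * exp (z u) ≤ 1 + 4 * ((fball x T).card / (fball x r).card - 1) := by
    calc _ ≤ ∑ u, (φ x u + if u ∈ fball x T \ fball x r then 4 / ((fball x r).card : ℝ) else 0) := by
          apply sum_le_sum
          intro u _
          rw [hz]
          beta_reduce
          by_cases h : ¬ dist x u ≤ r ∧ dist x u ≤ T
          · rw [if_pos h, if_pos (mem_sdiff.2 ⟨mem_fball.2 h.2, fun h' => h.1 (mem_fball.1 h')⟩)]
            have h3 := mul_le_mul_of_nonneg_right (hφ x u) (exp_pos ((dist x u / r) ^ p / A)).le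
            rw [mul_assoc, ← exp_add, neg_div, neg_add_cancel, exp_zero, mul_one] at h3
            linarith [h0 x u]
          · rw [if_neg h, exp_zero, mul_one]
            split_ifs
            · have : 0 ≤ 4 / ((fball x r).card : ℝ) := by positivity
              linarith
            · linarith
      _ = _ := by
          rw [sum_add_distrib, h1, ← sum_filter, filter_mem_eq_inter, univ_inter, sum_const,
            card_sdiff_of_subset (fball_mono x hT), nsmul_eq_mul,
            Nat.cast_sub (card_le_card (fball_mono x hT))]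
          field_simp
  have h3 : 1 + 4 * ((fball x T).card / (fball x r).card - 1 : ℝ) ≤
      ((fball x T).card / (fball x r).card : ℝ) ^ 4 := by
    have h4 : (0 : ℝ) ≤ (fball x T).card / (fball x r).card := by positivity
    have := one_add_mul_le_pow (a := ((fball x T).card / (fball x r).card - 1 : ℝ))
      (by linarith) 4
    rw [add_sub_cancel] at this
    exact_mod_cast this
  have h4 := (le_log_iff_exp_le (by positivity)).2 (hJ.trans (h2.trans h3))
  rw [log_pow, log_div hN'.ne' hN.ne'] at h4
  have h5 : ∑ u, (if ¬ dist x u ≤ r ∧ dist x u ≤ T then φ x u * (dist x u / r) ^ p else 0) =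
      A * ∑ u, φ x u * z u := by
    rw [mul_sum]
    apply sum_congr rfl
    intro u _
    rw [hz]
    beta_reduce
    split_ifs
    · field_simp
    · simp
  rw [h5]
  have := mul_le_mul_of_nonneg_left h4 hA.le
  push_cast at this
  linarith

lemma far_part {p A r T : ℝ} (hp : 1 ≤ p) (hA : 0 < A) (hr : 0 < r) (hT : 1 ≤ T)
    (hT' : 6 * A * log (Fintype.card X) ≤ T) (φ : X → X → ℝ) (hφ : Decay p A r φ) (x : X) :
    ∑ u, (if ¬ dist x u ≤ r * T then φ x u * (dist x u / r) ^ p else 0) ≤
      8 * A / (Fintype.card X) ^ 2 := by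
  have hn0 : (0 : ℝ) < Fintype.card X := by exact_mod_cast Fintype.card_pos
  calc _ ≤ ∑ _u : X, 8 * A / (Fintype.card X : ℝ) ^ 3 := by
        apply sum_le_sum
        intro u _
        split_ifs with h
        · positivity
        · have h1 : T ≤ dist x u / r := by rw [le_div_iff₀ hr]; linarith
          have h2 : T ≤ (dist x u / r) ^ p := by
            refine h1.trans ?_
            simpa using rpow_le_rpow_of_exponent_le (hT.trans h1) hp
          obtain ⟨t, ht⟩ : ∃ t, t = (dist x u / r) ^ p := ⟨_, rfl⟩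
          have h3 := hφ x u
          rw [← ht] at h2 h3 ⊢
          have h4 : (1 : ℝ) ≤ (fball x r).card := by
            exact_mod_cast (fball_nonempty x hr.le).card_pos
          have h5 : φ x u ≤ 4 * exp (-t / A) := h3.trans (by
            gcongr
            exact div_le_self (by norm_num) h4)
          have h6 : t ≤ 2 * A * exp (t / (2 * A)) := by
            have := le_exp_self (t / (2 * A))
            rw [div_le_iff₀ (by positivity)] at this
            linarith
          have h7 : exp (-t / A) * exp (t / (2 * A)) ≤ 1 / (Fintype.card X : ℝ) ^ 3 := by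
            rw [← exp_add, ← exp_log (show 0 < 1 / (Fintype.card X : ℝ) ^ 3 by positivity),
              exp_le_exp, one_div, log_inv, log_pow]
            have : -t / A + t / (2 * A) = -(t / (2 * A)) := by field_simp; ring
            rw [this, neg_le_neg_iff, le_div_iff₀ (by positivity)]
            push_cast
            linarith
          calc φ x u * t ≤ 4 * exp (-t / A) * (2 * A * exp (t / (2 * A))) :=
                mul_le_mul h5 h6 (by linarith) (by positivity)
            _ = 8 * A * (exp (-t / A) * exp (t / (2 * A))) := by ring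
            _ ≤ 8 * A * (1 / (Fintype.card X : ℝ) ^ 3) := by gcongr
            _ = _ := by ring
    _ = _ := by
        rw [sum_const, card_univ, nsmul_eq_mul]; field_simp

lemma energy_le {p A o : ℝ} (hp : 1 ≤ p) (hA : 0 < A) (φ : ℤ → X → X → ℝ)
    (hO : ∀ k, Over o (2 ^ k) (φ k)) (hφ : ∀ k, Decay p A (2 ^ k) (φ k)) (j : ℕ)
    (hj : 6 * A * log (Fintype.card X) ≤ 2 ^ j) (K : Finset ℤ)
    (hK : K.card ≤ Fintype.card X ^ 2) (x : X) :
    ∑ k ∈ K, ∑ u, φ k x u * (dist x u / 2 ^ k) ^ p ≤
      8 * (1 + log (Fintype.card X)) + 4 * A * (j * log (Fintype.card X)) + 8 * A := by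
  have hn0 : (0 : ℝ) < Fintype.card X := by exact_mod_cast Fintype.card_pos
  have h2j : (1 : ℝ) ≤ 2 ^ j := one_le_pow₀ one_le_two
  have hsplit : ∀ (k : ℤ) (u : X), φ k x u * (dist x u / 2 ^ k) ^ p =
      (if dist x u ≤ 2 ^ k then φ k x u * (dist x u / 2 ^ k) ^ p else 0) +
      (if ¬ dist x u ≤ 2 ^ k ∧ dist x u ≤ 2 ^ (k + j) then φ k x u * (dist x u / 2 ^ k) ^ p else 0) +
      (if ¬ dist x u ≤ 2 ^ k * 2 ^ j then φ k x u * (dist x u / 2 ^ k) ^ p else 0) := by
    intro k u
    have e : (2 : ℝ) ^ (k + j) = 2 ^ k * 2 ^ j := by rw [zpow_add₀ two_ne_zero, zpow_natCast]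
    have h1 : (2 : ℝ) ^ k ≤ 2 ^ k * 2 ^ j := le_mul_of_one_le_right (by positivity) h2j
    rw [e]
    by_cases h2 : dist x u ≤ 2 ^ k
    · simp [h2, h2.trans h1]
    · by_cases h3 : dist x u ≤ 2 ^ k * 2 ^ j
      · simp [h2, h3]
      · simp [h2, h3]
  calc _ = ∑ k ∈ K, ∑ u, (if dist x u ≤ 2 ^ k then φ k x u * (dist x u / 2 ^ k) ^ p else 0) +
      ∑ k ∈ K, ∑ u, (if ¬ dist x u ≤ 2 ^ k ∧ dist x u ≤ 2 ^ (k + j) then
        φ k x u * (dist x u / 2 ^ k) ^ p else 0) +
      ∑ k ∈ K, ∑ u, (if ¬ dist x u ≤ 2 ^ k * 2 ^ j then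
        φ k x u * (dist x u / 2 ^ k) ^ p else 0) := by
        simp only [← sum_add_distrib]
        exact sum_congr rfl fun k _ => sum_congr rfl fun u _ => hsplit k u
    _ ≤ _ := by
        refine add_le_add (add_le_add (near_part hp hA φ hφ K x) ?_) ?_
        · refine (sum_le_sum fun k _ => mid_part hA (by positivity)
            (zpow_le_zpow_right₀ one_le_two (by linarith)) (φ k) (hO k).1 (hO k).2.1
            (hφ k) x).trans ?_
          rw [← mul_sum]
          apply mul_le_mul_of_nonneg_left _ (by positivity)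
          refine tele (fun k => log (fball x (2 ^ k)).card) (fun k l h => ?_) (fun k => ?_)
            (fun k => ?_) K j
          · apply log_le_log (card_fball_pos x (by positivity))
            exact_mod_cast card_le_card (fball_mono x (zpow_le_zpow_right₀ one_le_two h))
          · exact log_natCast_nonneg _
          · apply log_le_log (card_fball_pos x (by positivity))
            exact_mod_cast card_le_univ _
        · refine (sum_le_sum fun k _ => far_part hp hA (by positivity) h2j hj (φ k)
            (hφ k) x).trans ?_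
          rw [sum_const, nsmul_eq_mul]
          have : (K.card : ℝ) ≤ (Fintype.card X : ℝ) ^ 2 := by exact_mod_cast hK
          calc _ ≤ (Fintype.card X : ℝ) ^ 2 * (8 * A / (Fintype.card X) ^ 2) := by gcongr
            _ = _ := by field_simp

theorem hajlasz {p A o : ℝ} (hp : 1 ≤ p) (hA : 0 < A) (ho : 0 < o) (a : Ω → X → ℝ)
    (hd : ∀ x y, ∑ ω, |a ω x - a ω y| ^ p = dist x y ^ p) (φ : ℤ → X → X → ℝ)
    (hO : ∀ k, Over o (2 ^ k) (φ k)) (hφ : ∀ k, Decay p A (2 ^ k) (φ k)) (j : ℕ)
    (hj : 6 * A * log (Fintype.card X) ≤ 2 ^ j) :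
    ∃ M : Ω → X → ℝ, (∀ ω x, 0 ≤ M ω x) ∧
      (∀ ω x y, |a ω x - a ω y| ≤ dist x y * (M ω x + M ω y)) ∧ ∀ x, ∑ ω, M ω x ^ p ≤
      (2 / o) ^ p * (8 * (1 + log (Fintype.card X)) + 4 * A * (j * log (Fintype.card X)) + 8 * A) := by
  classical
  have hp0 : 0 < p := by linarith
  obtain ⟨K, hK⟩ : ∃ K : Finset ℤ, K = univ.image fun q : X × X => Int.clog 2 (dist q.1 q.2) :=
    ⟨_, rfl⟩
  have hKc : K.card ≤ Fintype.card X ^ 2 := by
    rw [hK]; refine card_image_le.trans (le_of_eq ?_); simp [sq]
  obtain ⟨m, hm⟩ : ∃ m : ℤ → Ω → X → ℝ, m = fun k ω x =>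
    ∑ u, φ k x u * (|a ω x - a ω u| / 2 ^ k) := ⟨_, rfl⟩
  have hm0 : ∀ k ω x, 0 ≤ m k ω x := fun k ω x => by
    rw [hm]; exact sum_nonneg fun u _ => mul_nonneg ((hO k).1 _ _) (by positivity)
  have hS0 : ∀ ω x, 0 ≤ ∑ k ∈ K, m k ω x ^ p := fun ω x =>
    sum_nonneg fun k _ => rpow_nonneg (hm0 _ _ _) _
  refine ⟨fun ω x => 2 / o * (∑ k ∈ K, m k ω x ^ p) ^ (1 / p),
    fun ω x => mul_nonneg (by positivity) (rpow_nonneg (hS0 ω x) _), fun ω x y => ?_, fun x => ?_⟩
  · rcases eq_or_ne x y with rfl | hxy
    · simp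
    have hd0 : 0 < dist x y := dist_pos.2 hxy
    obtain ⟨k, hk⟩ : ∃ k, k = Int.clog 2 (dist x y) := ⟨_, rfl⟩
    have hkK : k ∈ K := by rw [hK, hk]; exact mem_image.2 ⟨(x, y), mem_univ _, rfl⟩
    have h1 : dist x y ≤ 2 ^ k := by
      have := Int.self_le_zpow_clog (b := 2) one_lt_two (dist x y)
      rw [hk]; exact_mod_cast this
    have h2 : (2 : ℝ) ^ k ≤ 2 * dist x y := by
      have := Int.zpow_pred_clog_lt_self (b := 2) one_lt_two hd0
      rw [← hk, zpow_sub_one₀ (by norm_num)] at this
      push_cast at this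
      linarith
    have h3 : ∀ z, m k ω z ≤ (∑ k ∈ K, m k ω z ^ p) ^ (1 / p) := by
      intro z
      have := rpow_le_rpow (rpow_nonneg (hm0 k ω z) p)
        (single_le_sum (f := fun k => m k ω z ^ p) (fun k _ => rpow_nonneg (hm0 _ _ _) _) hkK)
        (show 0 ≤ 1 / p by positivity)
      rwa [← rpow_mul (hm0 _ _ _), mul_one_div_cancel hp0.ne', rpow_one] at this
    have h4 : o * (|a ω x - a ω y| / 2 ^ k) ≤ m k ω x + m k ω y := by
      refine (mul_le_mul_of_nonneg_right ((hO k).2.2 x y h1) (by positivity)).trans ?_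
      rw [sum_mul, hm]
      beta_reduce
      rw [← sum_add_distrib]
      apply sum_le_sum
      intro u _
      have h5 : |a ω x - a ω y| / 2 ^ k ≤ |a ω x - a ω u| / 2 ^ k + |a ω y - a ω u| / 2 ^ k := by
        rw [← add_div]
        gcongr
        rw [abs_sub_comm (a ω y)]
        exact abs_sub_le _ _ _
      refine (mul_le_mul_of_nonneg_left h5 (le_min ((hO k).1 _ _) ((hO k).1 _ _))).trans ?_
      rw [mul_add]
      exact add_le_add (mul_le_mul_of_nonneg_right (min_le_left _ _) (by positivity))
        (mul_le_mul_of_nonneg_right (min_le_right _ _) (by positivity))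
    rw [← mul_div_assoc, div_le_iff₀ (by positivity), ← le_div_iff₀' ho] at h4
    refine h4.trans ?_
    have h5 := hm0 k ω x
    have h6 := hm0 k ω y
    calc _ ≤ ((∑ k ∈ K, m k ω x ^ p) ^ (1 / p) + (∑ k ∈ K, m k ω y ^ p) ^ (1 / p)) *
          (2 * dist x y) / o := by
          have := h3 x
          have := h3 y
          gcongr
          linarith
      _ = _ := by ring
  · refine le_trans ?_ (mul_le_mul_of_nonneg_left (energy_le hp hA φ hO hφ j hj K hKc x)
      (by positivity))
    have h1 : ∀ ω, (2 / o * (∑ k ∈ K, m k ω x ^ p) ^ (1 / p)) ^ p =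
        (2 / o) ^ p * ∑ k ∈ K, m k ω x ^ p := by
      intro ω
      rw [mul_rpow (by positivity) (rpow_nonneg (hS0 ω x) _), ← rpow_mul (hS0 ω x),
        one_div_mul_cancel hp0.ne', rpow_one]
    simp only [h1]
    rw [← mul_sum, sum_comm]
    apply mul_le_mul_of_nonneg_left _ (by positivity)
    apply sum_le_sum
    intro k _
    calc _ ≤ ∑ ω, ∑ u, φ k x u * (|a ω x - a ω u| / 2 ^ k) ^ p := by
          apply sum_le_sum
          intro ω _
          rw [hm]
          exact rpow_arith_mean_le_arith_mean_rpow univ _ _ (fun u _ => (hO k).1 x u)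
            ((hO k).2.1 x) (fun u _ => by positivity) hp
      _ = _ := by
          rw [sum_comm]
          apply sum_congr rfl
          intro u _
          rw [← mul_sum, div_rpow dist_nonneg (by positivity), ← hd, sum_div]
          congr 1
          exact sum_congr rfl fun ω _ => div_rpow (abs_nonneg _) (by positivity) _

end Vale.Agent.P249
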