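import Vale.Agent.P249.Hajlasz

namespace Vale.Agent.P249

open Finset Real

/-- Good kernels with decay parameter of order `(log n)^e`. -/
def GoodExp (p e : ℝ) : Prop :=
  ∃ o c : ℝ, 0 < o ∧ 1 ≤ c ∧ ∀ (X Ω : Type) [Fintype X] [Nonempty X] [MetricSpace X] [Fintype Ω]
    (a : Ω → X → ℝ), (∀ x y, ∑ ω, |a ω x - a ω y| ^ p = dist x y ^ p) → ∀ r : ℝ, 0 < r →
    ∃ φ : X → X → ℝ, Over o r φ ∧ Decay p (c * (1 + log (Fintype.card X)) ^ e) r φ

/-- Kernels with tails at distance of order `(log n)^f`. -/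
def TailExp (p f : ℝ) : Prop :=
  ∃ o c : ℝ, 0 < o ∧ 1 ≤ c ∧ ∀ (X Ω : Type) [Fintype X] [Nonempty X] [MetricSpace X] [Fintype Ω]
    (a : Ω → X → ℝ), (∀ x y, ∑ ω, |a ω x - a ω y| ^ p = dist x y ^ p) → ∀ r : ℝ, 0 < r →
    ∃ φ : X → X → ℝ, Over o r φ ∧
      Tail (c * (1 + log (Fintype.card X)) ^ f) (min (o / 2) (1 / Fintype.card X)) r φ

lemma Decay.mono {X : Type} [Fintype X] [MetricSpace X] {p A A' r : ℝ} {φ : X → X → ℝ}
    (h : Decay p A r φ) (hr : 0 < r) (hA : 0 < A) (hA' : A ≤ A') : Decay p A' r φ := by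
  intro x u
  refine (h x u).trans (mul_le_mul_of_nonneg_left ?_ (by positivity))
  rw [exp_le_exp, neg_div, neg_div, neg_le_neg_iff]
  exact div_le_div_of_nonneg_left (by positivity) hA hA'

lemma one_le_ell (n : ℕ) : 1 ≤ 1 + log (n : ℝ) := by linarith [log_natCast_nonneg n]

lemma GoodExp.mono {p e e' : ℝ} (h : GoodExp p e) (he : e ≤ e') : GoodExp p e' := by
  obtain ⟨o, c, ho, hc, h⟩ := h
  refine ⟨o, c, ho, hc, fun X Ω _ _ _ _ a hd r hr => ?_⟩
  obtain ⟨φ, h1, h2⟩ := h X Ω a hd r hr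
  have := one_le_ell (Fintype.card X)
  refine ⟨φ, h1, h2.mono hr (by positivity) ?_⟩
  exact mul_le_mul_of_nonneg_left (rpow_le_rpow_of_exponent_le this he) (by positivity)

lemma tail_bound {B : ℝ} (hB : 2 ≤ B) {n : ℕ} (hn : 0 < n) :
    n * exp (-(B * (1 + log n))) ≤ exp (-B) / n := by
  have hn0 : (0 : ℝ) < n := by exact_mod_cast hn
  have h1 := log_natCast_nonneg n
  rw [le_div_iff₀ hn0]
  calc n * exp (-(B * (1 + log n))) * n = exp (log n + -(B * (1 + log n)) + log n) := by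
        rw [exp_add, exp_add, exp_log hn0]
    _ ≤ _ := by rw [exp_le_exp]; nlinarith

lemma tailExp_one (p : ℝ) : TailExp p 1 := by
  refine ⟨exp (-2), 3, exp_pos _, by norm_num, fun X Ω _ _ _ _ a _ r hr => tail_init hr ?_⟩
  have hn : 0 < Fintype.card X := Fintype.card_pos
  have hn1 : (1 : ℝ) ≤ Fintype.card X := by exact_mod_cast hn
  rw [rpow_one]
  refine (tail_bound (by norm_num) hn).trans (le_min ?_ ?_)
  · refine (div_le_self (exp_pos _).le hn1).trans ?_
    rw [show (-3 : ℝ) = -2 + -1 by norm_num, exp_add, div_eq_mul_inv]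
    apply mul_le_mul_of_nonneg_left _ (exp_pos _).le
    rw [exp_neg]
    apply inv_anti₀ two_pos
    linarith [add_one_le_exp (1 : ℝ)]
  · gcongr
    exact exp_le_one_iff.2 (by norm_num)

lemma GoodExp.tail {p e : ℝ} (hp : 0 < p) (h : GoodExp p e) : TailExp p ((e + 1) / p) := by
  obtain ⟨o, c, ho, hc, h⟩ := h
  obtain ⟨B, hB⟩ : ∃ B, B = 2 + 8 / o := ⟨_, rfl⟩
  have hB2 : 2 ≤ B := by rw [hB]; exact le_add_of_nonneg_right (by positivity)
  refine ⟨o, (c * B) ^ (1 / p), ho, one_le_rpow (by nlinarith) (by positivity),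
    fun X Ω _ _ _ _ a hd r hr => ?_⟩
  obtain ⟨φ, h1, h2⟩ := h X Ω a hd r hr
  have hl := one_le_ell (Fintype.card X)
  have hn : 0 < Fintype.card X := Fintype.card_pos
  have hn1 : (1 : ℝ) ≤ Fintype.card X := by exact_mod_cast hn
  refine ⟨φ, h1, tail_of_decay hp (by positivity) hr (by positivity) h2 ?_⟩
  have e1 : -((c * B) ^ (1 / p) * (1 + log (Fintype.card X)) ^ ((e + 1) / p)) ^ p /
      (c * (1 + log (Fintype.card X)) ^ e) = -(B * (1 + log (Fintype.card X))) := by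
    rw [mul_rpow (by positivity) (by positivity), ← rpow_mul (by positivity),
      ← rpow_mul (by positivity), one_div_mul_cancel hp.ne', div_mul_cancel₀ _ hp.ne', rpow_one,
      rpow_add_one (by positivity)]
    field_simp
  rw [e1, mul_left_comm]
  refine (mul_le_mul_of_nonneg_left (tail_bound hB2 hn) (by norm_num)).trans (le_min ?_ ?_)
  · have h3 : exp (-B) ≤ o / 8 := by
      rw [exp_neg, ← inv_div]
      apply inv_anti₀ (by positivity)
      exact (le_exp_self _).trans (exp_le_exp.2 (by linarith))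
    have := div_le_self (exp_pos (-B)).le hn1
    linarith
  · have h3 : exp (-B) ≤ 1 / 4 := by
      rw [exp_neg, one_div]
      apply inv_anti₀ (by positivity)
      refine le_trans ?_ (exp_le_exp.2 hB2)
      rw [show (2 : ℝ) = 1 + 1 by norm_num, exp_add]
      nlinarith [add_one_le_exp (1 : ℝ)]
    rw [← mul_div_assoc]
    gcongr
    linarith

lemma TailExp.good {p f : ℝ} (hp : 2 ≤ p) (hf : 0 ≤ f) (h : TailExp p f) :
    GoodExp p (f * (p - 2)) := by
  obtain ⟨o, c, ho, hc, h⟩ := h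
  have h2p : (1 : ℝ) ≤ 2 ^ p := one_le_rpow one_le_two (by linarith)
  have hcp : 1 ≤ c ^ (p - 2) := one_le_rpow hc (by linarith)
  refine ⟨o / 8, 32 * 2 ^ p * (p ^ 2 * (1 + 2 * 2 ^ p)) * c ^ (p - 2), by positivity, ?_,
    fun X Ω _ _ _ _ a hd r hr => ?_⟩
  · apply one_le_mul_of_one_le_of_one_le _ hcp
    apply one_le_mul_of_one_le_of_one_le (by linarith)
    apply one_le_mul_of_one_le_of_one_le (by nlinarith) (by linarith)
  · obtain ⟨ρ, h1, h2⟩ := h X Ω a hd r hr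
    have hl := one_le_ell (Fintype.card X)
    obtain ⟨φ, h3, h4⟩ := good_of_tail hp hr
      (one_le_mul_of_one_le_of_one_le hc (one_le_rpow hl hf)) a hd h1 h2 (min_le_left _ _)
      (min_le_right _ _)
    refine ⟨φ, h3, ?_⟩
    rwa [mul_rpow (by positivity) (by positivity), ← rpow_mul (by positivity), ← mul_assoc] at h4

lemma goodExp_iter {p : ℝ} (hp : 2 ≤ p) (t : ℕ) :
    GoodExp p ((p - 2) / 2 * (1 + ((p - 2) / p) ^ t)) := by
  have hp0 : 0 < p := by linarith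
  induction t with
  | zero =>
    have := (tailExp_one p).good hp zero_le_one
    convert this using 1
    ring
  | succ t ih =>
    have h0 : 0 ≤ p - 2 := by linarith
    have := (ih.tail hp0).good hp (by positivity)
    convert this using 1
    rw [pow_succ]
    generalize ((p - 2) / p) ^ t = q
    field_simp
    ring

lemma goodExp_all {p γ : ℝ} (hp : 1 ≤ p) (h1 : 1 / 2 < γ) (h2 : 1 / p ≤ γ) :
    GoodExp p (γ * p - 1) := by
  have hp0 : 0 < p := by linarith
  rcases lt_or_ge p 2 with hp2 | hp2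
  · have hv : (2 : ℝ) ^ (p - 2) < 1 := rpow_lt_one_of_one_lt_of_neg one_lt_two (by linarith)
    have hv' : (0 : ℝ) < 1 / (1 - 2 ^ (p - 2)) := one_div_pos.2 (by linarith)
    have : GoodExp p 0 := ⟨1 / 4, 160 * (16 + 1 / (1 - 2 ^ (p - 2))), by norm_num, by linarith,
      fun X Ω _ _ _ _ a hd r hr => by
        rw [rpow_zero, mul_one]; exact good_small hp hp2 hr a hd⟩
    refine this.mono ?_
    rw [div_le_iff₀ hp0] at h2
    linarith
  · have h0 : 0 ≤ p - 2 := by linarith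
    obtain ⟨t, ht⟩ := exists_pow_lt_of_lt_one (x := 2 * γ - 1) (y := (p - 2) / p) (by linarith)
      (by rw [div_lt_one hp0]; linarith)
    refine (goodExp_iter hp2 t).mono ?_
    have : 0 ≤ ((p - 2) / p) ^ t := by positivity
    nlinarith

theorem finite_main {p ε γ : ℝ} (hp : 1 ≤ p) (hε : 0 < ε) (hε1 : ε ≤ 1 / 10) (h1 : 1 / 2 < γ)
    (h2 : 1 / p < γ) :
    ∃ C : ℝ, 0 < C ∧ ∀ (X Ω : Type) [Fintype X] [Nonempty X] [MetricSpace X] [Fintype Ω]
      (a : Ω → X → ℝ), (∀ x y, ∑ ω, |a ω x - a ω y| ^ p = dist x y ^ p) →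
      ∀ D : ℕ, exp (C * (1 + log (Fintype.card X)) ^ γ) ≤ D →
      ∃ c : Fin D → X → ℝ, ∀ x y, (1 - 6 * ε) * dist x y ^ p ≤ ∑ β, |c β x - c β y| ^ p ∧
        ∑ β, |c β x - c β y| ^ p ≤ (1 + 6 * ε) * dist x y ^ p := by
  have hp0 : 0 < p := by linarith
  have hγ : 0 < γ := by linarith
  obtain ⟨γ', h3, h4⟩ := exists_between (max_lt h1 h2)
  obtain ⟨h5, h6⟩ := max_lt_iff.1 h3
  obtain ⟨o, c, ho, hc, hG⟩ := goodExp_all hp h5 h6.le
  obtain ⟨C, hC, hcore⟩ := core hp hε hε1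
  obtain ⟨δ, hδ⟩ : ∃ δ, δ = (γ - γ') * p := ⟨_, rfl⟩
  have hδ0 : 0 < δ := by rw [hδ]; exact mul_pos (by linarith) hp0
  have hγ' : 1 ≤ γ' * p := by rw [div_lt_iff₀ hp0] at h6; exact h6.le
  obtain ⟨B, hB⟩ : ∃ B, B = 1 + 2 * (6 * c + γ' * p / δ) := ⟨_, rfl⟩
  have hB0 : 0 < B := by rw [hB]; positivity
  obtain ⟨E, hE⟩ : ∃ E, E = ((2 / o) ^ p * (8 + 4 * c * B + 8 * c)) ^ (1 / p) + 1 + 1 / γ :=
    ⟨_, rfl⟩
  have hE0 : 0 ≤ ((2 / o) ^ p * (8 + 4 * c * B + 8 * c)) ^ (1 / p) := by positivity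
  have hE0' : 0 < 1 / γ := by positivity
  refine ⟨C * E, mul_pos hC (by linarith), fun X Ω _ _ _ _ a hd D hD => ?_⟩
  obtain ⟨l, hl⟩ : ∃ l, l = 1 + log (Fintype.card X : ℝ) := ⟨_, rfl⟩
  have hl1 : 1 ≤ l := hl ▸ one_le_ell _
  have hl0 : 0 < l := by linarith
  have hl2 : log (Fintype.card X : ℝ) ≤ l := by linarith
  have hl3 := log_natCast_nonneg (Fintype.card X)
  choose φ hO hφ using fun k : ℤ => hG X Ω a hd (2 ^ k) (by positivity)
  rw [← hl] at hφ hD
  have hy : 1 ≤ l ^ (γ' * p) := one_le_rpow hl1 (by linarith)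
  have hy2 : l ^ (γ' * p) = l ^ (γ' * p - 1) * l := by
    rw [← rpow_add_one hl0.ne']; congr 1; ring
  have hy3 : 1 ≤ l ^ (γ' * p - 1) := one_le_rpow hl1 (by linarith)
  have hy4 : 1 ≤ l ^ δ := one_le_rpow hl1 hδ0.le
  have hy5 : l ^ (γ * p) = l ^ (γ' * p) * l ^ δ := by
    rw [← rpow_add hl0, hδ]; congr 1; ring
  obtain ⟨k, hk1, hk2⟩ := exists_nat_pow_near (x := 6 * c * l ^ (γ' * p)) (y := 2)
    (by nlinarith) one_lt_two
  have hk3 : ((k + 1 : ℕ) : ℝ) ≤ B * l ^ δ := by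
    have h7 := log_le_log (by positivity) hk1
    rw [log_pow, log_mul (by positivity) (by positivity), log_rpow hl0] at h7
    have h8 := log_le_rpow_div hl0.le hδ0
    have h9 : log (6 * c) ≤ 6 * c * l ^ δ :=
      (log_le_self (by positivity)).trans (le_mul_of_one_le_right (by positivity) hy4)
    have h10 : γ' * p * log l ≤ γ' * p / δ * l ^ δ := by
      refine (mul_le_mul_of_nonneg_left h8 (by positivity)).trans (le_of_eq ?_)
      ring
    have h11 : (k : ℝ) * (1 / 2) ≤ k * log 2 :=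
      mul_le_mul_of_nonneg_left (by linarith [log_two_gt_d9]) (by positivity)
    push_cast
    rw [hB]
    linarith
  obtain ⟨M, hM0, hM1, hM2⟩ := hajlasz hp (by positivity) ho a hd φ hO hφ (k + 1) (by
    refine le_trans ?_ hk2.le
    rw [hy2]
    have := mul_le_mul_of_nonneg_left hl2 (show 0 ≤ 6 * (c * l ^ (γ' * p - 1)) by positivity)
    linarith)
  have hlγ : 1 ≤ l ^ γ := one_le_rpow hl1 hγ.le
  refine hcore X Ω a M (E * l ^ γ) (one_le_mul_of_one_le_of_one_le (by linarith) hlγ) hM0 hM1 hd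
    (fun x => (hM2 x).trans ?_) ?_ D (by rwa [← mul_assoc])
  · rw [← hl, mul_rpow (by linarith) (by positivity), ← rpow_mul hl0.le]
    have h7 : (2 / o) ^ p * (8 + 4 * c * B + 8 * c) ≤ E ^ p := by
      have := rpow_le_rpow hE0 (show _ ≤ E by linarith) hp0.le
      rwa [← rpow_mul (by positivity), one_div_mul_cancel hp0.ne', rpow_one] at this
    refine le_trans ?_ (mul_le_mul_of_nonneg_right h7 (by positivity))
    rw [mul_assoc ((2 / o) ^ p)]
    apply mul_le_mul_of_nonneg_left _ (by positivity)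
    have h8 : l ^ (γ' * p) ≤ l ^ (γ * p) := by
      rw [hy5]; exact le_mul_of_one_le_right (by positivity) hy4
    have h9 : l ≤ l ^ (γ' * p) := by rw [hy2]; exact le_mul_of_one_le_left hl0.le hy3
    have h10 : l ^ (γ' * p - 1) ≤ l ^ (γ' * p) := by
      rw [hy2]; exact le_mul_of_one_le_right (by positivity) hl1
    have h11 : 4 * (c * l ^ (γ' * p - 1)) * (((k + 1 : ℕ) : ℝ) * log (Fintype.card X)) ≤
        4 * c * B * l ^ (γ * p) := by
      calc _ ≤ 4 * (c * l ^ (γ' * p - 1)) * (B * l ^ δ * l) := by gcongr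
        _ = _ := by rw [hy5, hy2]; ring
    have h12 : c * l ^ (γ' * p - 1) ≤ c * l ^ (γ * p) :=
      mul_le_mul_of_nonneg_left (h10.trans h8) (by positivity)
    linarith
  · refine hl2.trans ?_
    rw [← exp_log hl0, exp_le_exp, exp_log hl0]
    refine (log_le_rpow_div hl0.le hγ).trans ?_
    rw [div_eq_mul_one_div, mul_comm]
    exact mul_le_mul_of_nonneg_right (by linarith) (by positivity)

end Vale.Agent.P249
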