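import Vale.Agent.P249.Sample
import Vale.Agent.P249.Merge

namespace Vale.Agent.P249

open Finset Real

lemma min_ge_quad {f g : ℝ} (hf : 0 ≤ f) (hg : 0 < g) : f / 2 - f * (f / g) / 16 ≤ min f g := by
  apply le_min
  · have : 0 ≤ f * (f / g) / 16 := by positivity
    linarith
  · have h : g - (f / 2 - f * (f / g) / 16) = (4 * g - f) ^ 2 / (16 * g) := by
      field_simp; ring
    have : 0 ≤ (4 * g - f) ^ 2 / (16 * g) := by positivity
    linarith

lemma coord_chi {x y : ℝ} (hy : |y| ≤ 1 / 2) :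
    (1 + x) / 2 * ((1 + x) / 2 / ((1 + y) / 2)) +
      (1 - (1 + x) / 2) * ((1 - (1 + x) / 2) / (1 - (1 + y) / 2)) ≤ 1 + 4 / 3 * (x - y) ^ 2 := by
  have h := abs_le.1 hy
  have h1 : 0 < 1 + y := by linarith
  have h2 : 0 < 1 - y := by linarith
  have h3 : (1 + x) / 2 * ((1 + x) / 2 / ((1 + y) / 2)) +
      (1 - (1 + x) / 2) * ((1 - (1 + x) / 2) / (1 - (1 + y) / 2)) =
      1 + (x - y) ^ 2 / ((1 + y) * (1 - y)) := by
    have h4 : 1 - (1 + y) / 2 = (1 - y) / 2 := by ring
    rw [h4]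
    field_simp
    ring
  rw [h3, add_le_add_iff_left, div_le_iff₀ (by positivity)]
  have h5 : 3 / 4 ≤ (1 + y) * (1 - y) := by nlinarith
  nlinarith [sq_nonneg (x - y)]

lemma coord_decay {x u v : ℝ} (hx : |x| ≤ 1 / 2) (hu : |u| ≤ 1 / 2) (hv : |v| ≤ 1 / 2) :
    (1 + x) / 2 * exp ((u - u ^ 2 / 2) / 8 - (v - v ^ 2 / 2) / 8) +
      (1 - (1 + x) / 2) * exp ((-u - u ^ 2 / 2) / 8 - (-v - v ^ 2 / 2) / 8) ≤
      exp (-(x - u) ^ 2 / 32 + 3 / 32 * (x - v) ^ 2) := by
  have hx' := abs_le.1 hx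
  have hu' := abs_le.1 hu
  have hv' := abs_le.1 hv
  set δ := (u - v) / 8 with hδ
  have hδ1 : |δ| ≤ 1 := by rw [abs_le, hδ]; constructor <;> linarith
  have h1 := exp_le_quad hδ1
  have h2 := exp_le_quad (x := -δ) (by rwa [abs_neg])
  have e1 : (u - u ^ 2 / 2) / 8 - (v - v ^ 2 / 2) / 8 = -(u ^ 2 - v ^ 2) / 16 + δ := by
    rw [hδ]; ring
  have e2 : (-u - u ^ 2 / 2) / 8 - (-v - v ^ 2 / 2) / 8 = -(u ^ 2 - v ^ 2) / 16 + -δ := by
    rw [hδ]; ring
  rw [e1, e2, exp_add, exp_add]
  have h3 : (1 + x) / 2 * exp δ + (1 - (1 + x) / 2) * exp (-δ) ≤ exp (δ * x + δ ^ 2) := by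
    have h4 := mul_le_mul_of_nonneg_left h1 (show 0 ≤ (1 + x) / 2 by linarith)
    have h5 := mul_le_mul_of_nonneg_left h2 (show 0 ≤ 1 - (1 + x) / 2 by linarith)
    linarith [add_one_le_exp (δ * x + δ ^ 2)]
  calc _ = exp (-(u ^ 2 - v ^ 2) / 16) *
        ((1 + x) / 2 * exp δ + (1 - (1 + x) / 2) * exp (-δ)) := by ring
    _ ≤ exp (-(u ^ 2 - v ^ 2) / 16) * exp (δ * x + δ ^ 2) :=
        mul_le_mul_of_nonneg_left h3 (exp_pos _).le
    _ ≤ _ := by
        rw [← exp_add, exp_le_exp, hδ]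
        nlinarith [sq_nonneg (u + v - 2 * x)]

variable {X : Type} [Fintype X] [Nonempty X]

lemma kernel_bounded {I : Type} [Fintype I] (Φ : X → I → ℝ) (hΦ : ∀ x i, |Φ x i| ≤ 1 / 2) :
    ∃ φ : X → X → ℝ, (∀ x u, 0 ≤ φ x u) ∧ (∀ x, ∑ u, φ x u = 1) ∧
      (∀ x y, ∑ i, (Φ x i - Φ y i) ^ 2 ≤ 1 → 1 / 4 ≤ ∑ u, min (φ x u) (φ y u)) ∧
      ∀ x u (B : Finset X), B.Nonempty → (∀ v ∈ B, ∑ i, (Φ x i - Φ v i) ^ 2 ≤ 1) →
        φ x u ≤ 2 / B.card * exp (-(∑ i, (Φ x i - Φ u i) ^ 2) / 32) := by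
  classical
  let θ : X → I → ℝ := fun x i => (1 + Φ x i) / 2
  have hθ0 : ∀ x i, 0 < θ x i := fun x i => by
    have := abs_le.1 (hΦ x i); simp only [θ]; linarith
  have hθ1 : ∀ x i, θ x i < 1 := fun x i => by
    have := abs_le.1 (hΦ x i); simp only [θ]; linarith
  have hnu : ∀ x z, 0 < nu (θ x) z := fun x z => by
    apply prod_pos
    intro i _
    split_ifs
    · exact hθ0 x i
    · linarith [hθ1 x i]
  have hnu1 : ∀ x, ∑ z : I → Bool, nu (θ x) z = 1 := fun x => by
    simpa using sum_nu_prod (θ x) (fun _ _ => 1)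
  let e : X → I → Bool → ℝ := fun u i b => ((if b then Φ u i else -Φ u i) - Φ u i ^ 2 / 2) / 8
  let w : X → (I → Bool) → ℝ := fun u z => exp (∑ i, e u i (z i))
  have hw : ∀ u z, 0 < w u z := fun u z => exp_pos _
  have hW : ∀ z, 0 < ∑ v, w v z := fun z => sum_pos (fun v _ => hw v z) univ_nonempty
  have hν1 : ∀ z, ∑ u, w u z / ∑ v, w v z = 1 := fun z => by
    rw [← sum_div, div_self (hW z).ne']
  refine ⟨fun x u => ∑ z : I → Bool, nu (θ x) z * (w u z / ∑ v, w v z), ?_, ?_, ?_, ?_⟩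
  · intro x u
    exact sum_nonneg fun z _ => mul_nonneg (hnu x z).le (div_pos (hw u z) (hW z)).le
  · intro x
    rw [sum_comm]
    simp only [← mul_sum, hν1, mul_one, hnu1]
  · intro x y hxy
    have h1 : ∑ z : I → Bool, nu (θ x) z * (nu (θ x) z / nu (θ y) z) ≤ 4 := by
      have h2 := sum_nu_prod (θ x) (fun i b => if b then θ x i / θ y i
        else (1 - θ x i) / (1 - θ y i))
      have h3 : ∀ z : I → Bool, nu (θ x) z / nu (θ y) z = ∏ i, if z i then θ x i / θ y i
          else (1 - θ x i) / (1 - θ y i) := by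
        intro z
        rw [nu, nu, ← prod_div_distrib]
        apply prod_congr rfl
        intro i _
        split_ifs <;> rfl
      simp only [h3]
      rw [h2]
      simp only [if_true, Bool.false_eq_true, if_false]
      calc _ ≤ ∏ i, (1 + 4 / 3 * (Φ x i - Φ y i) ^ 2) := by
            apply prod_le_prod
            · intro i _
              have := hθ0 x i
              have := hθ0 y i
              have h4 : 0 < 1 - θ x i := by linarith [hθ1 x i]
              have h5 : 0 < 1 - θ y i := by linarith [hθ1 y i]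
              positivity
            · intro i _
              exact coord_chi (hΦ y i)
        _ ≤ exp (∑ i, 4 / 3 * (Φ x i - Φ y i) ^ 2) :=
            prod_one_add_le_exp _ _ fun _ _ => by positivity
        _ ≤ exp (log 2 + log 2) := by
            rw [exp_le_exp, ← mul_sum]
            linarith [log_two_gt_d9]
        _ = 4 := by rw [exp_add, exp_log (by norm_num)]; norm_num
    calc (1 / 4 : ℝ) ≤ ∑ z : I → Bool,
          (nu (θ x) z / 2 - nu (θ x) z * (nu (θ x) z / nu (θ y) z) / 16) := by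
          rw [sum_sub_distrib, ← sum_div, ← sum_div, hnu1]
          linarith
      _ ≤ ∑ z : I → Bool, min (nu (θ x) z) (nu (θ y) z) :=
          sum_le_sum fun z _ => min_ge_quad (hnu x z).le (hnu y z)
      _ = ∑ u, ∑ z : I → Bool, min (nu (θ x) z) (nu (θ y) z) * (w u z / ∑ v, w v z) := by
          rw [sum_comm]
          simp only [← mul_sum, hν1, mul_one]
      _ ≤ _ := by
          apply sum_le_sum
          intro u _
          apply le_min
          · exact sum_le_sum fun z _ => mul_le_mul_of_nonneg_right (min_le_left _ _)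
              (div_pos (hw u z) (hW z)).le
          · exact sum_le_sum fun z _ => mul_le_mul_of_nonneg_right (min_le_right _ _)
              (div_pos (hw u z) (hW z)).le
  · intro x u B hB hBx
    have hB0 : (0 : ℝ) < B.card := by exact_mod_cast hB.card_pos
    have h1 : ∀ z, w u z / ∑ v, w v z ≤ (∑ v ∈ B, w u z / w v z) / B.card ^ 2 := by
      intro z
      have h2 := sq_sum_div_le_sum_sq_div B (fun _ => (1 : ℝ)) (g := fun v => w v z)
        (fun v _ => hw v z)
      simp only [sum_const, nsmul_eq_mul, mul_one, one_pow] at h2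
      have h3 : ∑ v ∈ B, w v z ≤ ∑ v, w v z :=
        sum_le_sum_of_subset_of_nonneg (subset_univ _) fun v _ _ => (hw v z).le
      have h4 : 0 < ∑ v ∈ B, w v z := sum_pos (fun v _ => hw v z) hB
      have h5 : ∑ v ∈ B, w u z / w v z = w u z * ∑ v ∈ B, 1 / w v z := by
        rw [mul_sum]; apply sum_congr rfl; intro v _; ring
      rw [h5, le_div_iff₀ (by positivity), div_mul_eq_mul_div, mul_div_assoc]
      apply mul_le_mul_of_nonneg_left _ (hw u z).le
      exact (div_le_div_of_nonneg_left (by positivity) h4 h3).trans h2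
    have h2 : ∀ v ∈ B, ∑ z : I → Bool, nu (θ x) z * (w u z / w v z) ≤
        2 * exp (-(∑ i, (Φ x i - Φ u i) ^ 2) / 32) := by
      intro v hv
      have h3 := sum_nu_prod (θ x) (fun i b => exp (e u i b - e v i b))
      have h4 : ∀ z : I → Bool, w u z / w v z = ∏ i, exp (e u i (z i) - e v i (z i)) := by
        intro z
        simp only [w]
        rw [← exp_sub, ← sum_sub_distrib, exp_sum]
      simp only [h4]
      rw [h3]
      calc _ ≤ ∏ i, exp (-(Φ x i - Φ u i) ^ 2 / 32 + 3 / 32 * (Φ x i - Φ v i) ^ 2) := by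
            apply prod_le_prod
            · intro i _
              have := hθ0 x i
              have h4 : 0 < 1 - θ x i := by linarith [hθ1 x i]
              positivity
            · intro i _
              exact coord_decay (hΦ x i) (hΦ u i) (hΦ v i)
        _ = exp (3 / 32 * ∑ i, (Φ x i - Φ v i) ^ 2) *
            exp (-(∑ i, (Φ x i - Φ u i) ^ 2) / 32) := by
            rw [← exp_sum, ← exp_add, sum_add_distrib, ← mul_sum, ← sum_div, sum_neg_distrib,
              add_comm]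
        _ ≤ _ := by
            apply mul_le_mul_of_nonneg_right _ (exp_pos _).le
            rw [← exp_log (show (0 : ℝ) < 2 by norm_num), exp_le_exp]
            linarith [log_two_gt_d9, hBx v hv]
    calc _ ≤ ∑ z : I → Bool, nu (θ x) z * ((∑ v ∈ B, w u z / w v z) / B.card ^ 2) :=
          sum_le_sum fun z _ => mul_le_mul_of_nonneg_left (h1 z) (hnu x z).le
      _ = (∑ v ∈ B, ∑ z : I → Bool, nu (θ x) z * (w u z / w v z)) / B.card ^ 2 := by
          rw [sum_comm, sum_div]
          apply sum_congr rfl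
          intro z _
          rw [← mul_sum, mul_div_assoc]
      _ ≤ (∑ v ∈ B, 2 * exp (-(∑ i, (Φ x i - Φ u i) ^ 2) / 32)) / B.card ^ 2 := by
          gcongr with v hv
          exact h2 v hv
      _ = _ := by
          rw [sum_const, nsmul_eq_mul]
          field_simp

/-- Dimension free kernels attached to a Hilbert space embedding. -/
theorem kernel {I : Type} [Fintype I] (Φ : X → I → ℝ) :
    ∃ φ : X → X → ℝ, (∀ x u, 0 ≤ φ x u) ∧ (∀ x, ∑ u, φ x u = 1) ∧
      (∀ x y, ∑ i, (Φ x i - Φ y i) ^ 2 ≤ 1 → 1 / 4 ≤ ∑ u, min (φ x u) (φ y u)) ∧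
      ∀ x u (B : Finset X), B.Nonempty → (∀ v ∈ B, ∑ i, (Φ x i - Φ v i) ^ 2 ≤ 1) →
        φ x u ≤ 2 / B.card * exp (-(∑ i, (Φ x i - Φ u i) ^ 2) / 32) := by
  obtain ⟨b, hb⟩ := Finite.exists_le (fun k : X × I => |Φ k.1 k.2|)
  obtain ⟨R, hR⟩ := exists_nat_gt (2 * |b|)
  have hR0 : (0 : ℝ) < R := lt_of_le_of_lt (by positivity) hR
  have hsum : ∀ x y, ∑ k : I × Fin (R ^ 2), (Φ x k.1 / R - Φ y k.1 / R) ^ 2 =
      ∑ i, (Φ x i - Φ y i) ^ 2 := by
    intro x y
    rw [Fintype.sum_prod_type]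
    apply sum_congr rfl
    intro i _
    simp only [sum_const, card_univ, Fintype.card_fin, nsmul_eq_mul, Nat.cast_pow]
    field_simp
  have := kernel_bounded (I := I × Fin (R ^ 2)) (fun x k => Φ x k.1 / R) (by
    intro x k
    rw [abs_div, abs_of_pos hR0, div_le_iff₀ hR0]
    linarith [hb (x, k.1), le_abs_self b])
  simpa only [hsum] using this

end Vale.Agent.P249
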