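import Mathlib

namespace Vale.Agent.P249

open Finset Real

lemma exp_le_quad {x : ℝ} (hx : |x| ≤ 1) : exp x ≤ 1 + x + x ^ 2 := by
  have := (abs_le.1 (Real.abs_exp_sub_one_sub_id_le hx)).2
  linarith

lemma exists_le_avg {I : Type*} [Fintype I] (ρ : I → ℝ) (hρ : ∀ α, 0 ≤ ρ α)
    (hρ1 : ∑ α, ρ α = 1) (F : I → ℝ) {B : ℝ} (h : ∑ α, ρ α * F α ≤ B) : ∃ α, F α ≤ B := by
  by_contra hcon
  push Not at hcon
  have hne : ∃ α, 0 < ρ α := by
    by_contra h0
    push Not at h0
    have : ∑ α, ρ α ≤ 0 := sum_nonpos fun α _ => h0 α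
    linarith
  obtain ⟨α₀, hα₀⟩ := hne
  have : ∑ α, ρ α * B < ∑ α, ρ α * F α := by
    apply sum_lt_sum
    · intro α _
      exact mul_le_mul_of_nonneg_left (hcon α).le (hρ α)
    · exact ⟨α₀, mem_univ _, mul_lt_mul_of_pos_left (hcon α₀) hα₀⟩
  rw [← sum_mul, hρ1, one_mul] at this
  linarith

/-- Multiplicative weights. -/
lemma mw {I κ : Type*} [Fintype I] [Fintype κ] (ρ : I → ℝ) (hρ : ∀ α, 0 ≤ ρ α)
    (hρ1 : ∑ α, ρ α = 1) (U : I → κ → ℝ) {B : ℝ} (hB : 0 ≤ B)
    (h : ∀ k, ∑ α, ρ α * exp (U α k) ≤ B) (D : ℕ) :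
    ∃ seq : ℕ → I, ∑ k, exp (∑ β ∈ range D, U (seq β) k) ≤ Fintype.card κ * B ^ D := by
  classical
  induction D with
  | zero =>
    obtain ⟨α, _⟩ := exists_le_avg ρ hρ hρ1 (fun _ => 0) (B := 0) (by simp)
    exact ⟨fun _ => α, by simp⟩
  | succ D ih =>
    obtain ⟨seq, hseq⟩ := ih
    obtain ⟨α, hα⟩ := exists_le_avg ρ hρ hρ1
      (fun α => ∑ k, exp (∑ β ∈ range D, U (seq β) k) * exp (U α k))
      (B := Fintype.card κ * B ^ (D + 1)) (by
        simp only [mul_sum]
        rw [sum_comm]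
        calc ∑ k, ∑ α, ρ α * (exp (∑ β ∈ range D, U (seq β) k) * exp (U α k))
            = ∑ k, exp (∑ β ∈ range D, U (seq β) k) * ∑ α, ρ α * exp (U α k) := by
              apply sum_congr rfl
              intro k _
              rw [mul_sum]
              apply sum_congr rfl
              intro α _
              ring
          _ ≤ ∑ k, exp (∑ β ∈ range D, U (seq β) k) * B :=
              sum_le_sum fun k _ => mul_le_mul_of_nonneg_left (h k) (exp_pos _).le
          _ ≤ Fintype.card κ * B ^ (D + 1) := by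
              rw [← sum_mul, pow_succ, ← mul_assoc]
              exact mul_le_mul_of_nonneg_right hseq hB)
    refine ⟨Function.update seq D α, le_trans (le_of_eq ?_) hα⟩
    apply sum_congr rfl
    intro k _
    rw [sum_range_succ, exp_add, Function.update_self]
    congr 2
    apply sum_congr rfl
    intro β hβ
    rw [Function.update_of_ne (ne_of_lt (mem_range.1 hβ))]

lemma sample_tests {I κ : Type*} [Fintype I] [Fintype κ] (ρ : I → ℝ) (hρ : ∀ α, 0 ≤ ρ α)
    (hρ1 : ∑ α, ρ α = 1) (Y : I → κ → ℝ) {S ε : ℝ} (hS : 1 ≤ S) (hε : 0 < ε) (hε1 : ε ≤ 1)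
    (hY0 : ∀ α k, 0 ≤ Y α k) (hYS : ∀ α k, Y α k ≤ S) (hQ : ∀ k, ∑ α, ρ α * Y α k ≤ 2)
    (D : ℕ) (hD : 8 * S * log (2 * Fintype.card κ) / ε ^ 2 ≤ D) :
    ∃ seq : ℕ → I, ∀ k, |∑ β ∈ range D, Y (seq β) k - D * ∑ α, ρ α * Y α k| ≤ ε * D := by
  classical
  set Q : κ → ℝ := fun k => ∑ α, ρ α * Y α k with hQdef
  have hQ0 : ∀ k, 0 ≤ Q k := fun k => sum_nonneg fun α _ => mul_nonneg (hρ α) (hY0 α k)
  have hQS : ∀ k, Q k ≤ S := fun k => by
    calc Q k ≤ ∑ α, ρ α * S := sum_le_sum fun α _ => mul_le_mul_of_nonneg_left (hYS α k) (hρ α)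
      _ = S := by rw [← sum_mul, hρ1, one_mul]
  set l := ε / (4 * S) with hl
  have hl0 : 0 < l := by positivity
  have hlS : l * S = ε / 4 := by rw [hl]; field_simp
  let sg : Bool → ℝ := fun b => if b then 1 else -1
  have hsg : ∀ b, sg b ^ 2 = 1 := by intro b; cases b <;> simp [sg]
  have hsg' : ∀ b, |sg b| = 1 := by intro b; cases b <;> simp [sg]
  obtain ⟨seq, hseq⟩ := mw (κ := κ × Bool) ρ hρ hρ1
    (fun α k => sg k.2 * l * (Y α k.1 - Q k.1)) (B := exp (2 * l ^ 2 * S)) (exp_pos _).le (by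
      rintro ⟨k, b⟩
      have h1 : ∀ α, exp (sg b * l * (Y α k - Q k)) ≤
          1 + sg b * l * (Y α k - Q k) + l ^ 2 * (S * Y α k - 2 * Q k * Y α k + Q k ^ 2) := by
        intro α
        have h2 : |Y α k - Q k| ≤ S := by
          rw [abs_le]; constructor <;> linarith [hY0 α k, hYS α k, hQ0 k, hQS k]
        have h3 : |sg b * l * (Y α k - Q k)| ≤ 1 := by
          rw [abs_mul, abs_mul, hsg', one_mul, abs_of_pos hl0]
          calc l * |Y α k - Q k| ≤ l * S := mul_le_mul_of_nonneg_left h2 hl0.le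
            _ ≤ 1 := by rw [hlS]; linarith
        refine (exp_le_quad h3).trans ?_
        have h4 : (sg b * l * (Y α k - Q k)) ^ 2 = l ^ 2 * (Y α k - Q k) ^ 2 := by
          rw [mul_pow, mul_pow, hsg]; ring
        rw [h4]
        have h5 : (Y α k - Q k) ^ 2 ≤ S * Y α k - 2 * Q k * Y α k + Q k ^ 2 := by
          nlinarith [hY0 α k, hYS α k]
        nlinarith [sq_nonneg l]
      calc ∑ α, ρ α * exp (sg b * l * (Y α k - Q k))
          ≤ ∑ α, ρ α * (1 + sg b * l * (Y α k - Q k) +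
            l ^ 2 * (S * Y α k - 2 * Q k * Y α k + Q k ^ 2)) :=
            sum_le_sum fun α _ => mul_le_mul_of_nonneg_left (h1 α) (hρ α)
        _ = ∑ α, (ρ α * (1 - sg b * l * Q k + l ^ 2 * Q k ^ 2) +
            (sg b * l + l ^ 2 * S - 2 * l ^ 2 * Q k) * (ρ α * Y α k)) := by
            apply sum_congr rfl; intro α _; ring
        _ = 1 + l ^ 2 * (S * Q k - Q k ^ 2) := by
            rw [sum_add_distrib, ← sum_mul, ← mul_sum, hρ1]
            change _ + _ * Q k = _
            ring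
        _ ≤ 1 + 2 * l ^ 2 * S := by
            have h6 : S * Q k - Q k ^ 2 ≤ 2 * S := by nlinarith [hQ k, hQ0 k, sq_nonneg (Q k)]
            nlinarith [sq_nonneg l]
        _ ≤ exp (2 * l ^ 2 * S) := by linarith [add_one_le_exp (2 * l ^ 2 * S)]) D
  refine ⟨seq, fun k => ?_⟩
  have hcard : (0 : ℝ) < Fintype.card κ := by
    have : 0 < Fintype.card κ := Fintype.card_pos_iff.2 ⟨k⟩
    exact_mod_cast this
  have hb : ∀ b, sg b * (∑ β ∈ range D, Y (seq β) k - D * Q k) ≤ ε * D := by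
    intro b
    have h1 := single_le_sum (f := fun k : κ × Bool =>
      exp (∑ β ∈ range D, sg k.2 * l * (Y (seq β) k.1 - Q k.1))) (fun _ _ => (exp_pos _).le)
      (mem_univ (k, b))
    have h2 := h1.trans hseq
    simp only [Fintype.card_prod, Fintype.card_bool, Nat.cast_mul, Nat.cast_ofNat] at h2
    rw [← exp_nat_mul, ← exp_log (show (0 : ℝ) < Fintype.card κ * 2 by positivity), ← exp_add,
      exp_le_exp, ← mul_sum, sum_sub_distrib, sum_const, card_range, nsmul_eq_mul,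
      mul_comm (Fintype.card κ : ℝ) 2] at h2
    rw [div_le_iff₀ (by positivity)] at hD
    have h3 : log (2 * Fintype.card κ) ≤ l * (ε * D / 2) := by
      have : l * (ε * D / 2) = D * ε ^ 2 / (8 * S) := by rw [hl]; field_simp; ring
      rw [this, le_div_iff₀ (by positivity)]
      linarith
    have h4 : (D : ℝ) * (2 * l ^ 2 * S) = l * (ε * D / 2) := by
      have : 2 * l ^ 2 * S = l * (2 * (l * S)) := by ring
      rw [this, hlS]; ring
    have h5 : l * (sg b * (∑ β ∈ range D, Y (seq β) k - D * Q k)) ≤ l * (ε * D) := by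
      nlinarith
    exact le_of_mul_le_mul_left h5 hl0
  have h1 := hb true
  have h2 := hb false
  simp only [sg, if_true, Bool.false_eq_true, if_false] at h1 h2
  rw [abs_le]
  constructor <;> linarith

/-- Sampling coordinates according to their sensitivities. -/
theorem sample {X I : Type} [Fintype X] [MetricSpace X] [Fintype I] {p : ℝ} (hp : 0 < p)
    (w : I → ℝ) (hw : ∀ α, 0 ≤ w α) (b : I → X → ℝ) (σ : I → ℝ) (hσ0 : ∀ α, 0 ≤ σ α)
    (hσ : ∀ α x y, |b α x - b α y| ^ p ≤ σ α * dist x y ^ p) {S ε : ℝ} (hS : 1 ≤ S)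
    (hwS : ∑ α, w α * σ α ≤ S) (hε : 0 < ε) (hε1 : ε ≤ 1)
    (hQ : ∀ x y, ∑ α, w α * |b α x - b α y| ^ p ≤ 2 * dist x y ^ p) (D : ℕ) (hD0 : 0 < D)
    (hD : 8 * S * log (2 * Fintype.card (X × X)) / ε ^ 2 ≤ D) :
    ∃ c : Fin D → X → ℝ, ∀ x y,
      |∑ β, |c β x - c β y| ^ p - ∑ α, w α * |b α x - b α y| ^ p| ≤ ε * dist x y ^ p := by
  classical
  have hS0 : 0 < S := by linarith
  let ρ : Option I → ℝ := fun o => o.elim (1 - (∑ α, w α * σ α) / S) fun α => w α * σ α / S
  let Y : Option I → X × X → ℝ := fun o k =>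
    o.elim 0 fun α => S / σ α * |b α k.1 - b α k.2| ^ p / dist k.1 k.2 ^ p
  have hd0 : ∀ x y : X, 0 ≤ dist x y ^ p := fun x y => rpow_nonneg dist_nonneg p
  have hab0 : ∀ z : ℝ, 0 ≤ |z| ^ p := fun z => rpow_nonneg (abs_nonneg _) p
  have hmean : ∀ k : X × X, ∑ o, ρ o * Y o k =
      (∑ α, w α * |b α k.1 - b α k.2| ^ p) / dist k.1 k.2 ^ p := by
    intro k
    rw [Fintype.sum_option, sum_div]
    simp only [ρ, Y, Option.elim, mul_zero, zero_add]
    apply sum_congr rfl
    intro α _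
    rcases (hσ0 α).eq_or_lt with h | h
    · have h1 := hσ α k.1 k.2
      rw [← h, zero_mul] at h1
      have h2 : |b α k.1 - b α k.2| ^ p = 0 := le_antisymm h1 (hab0 _)
      rw [h2]; simp
    · field_simp
  obtain ⟨seq, hseq⟩ := sample_tests ρ (by
      rintro (_ | α)
      · simp only [ρ, Option.elim, sub_nonneg]
        rw [div_le_one hS0]; exact hwS
      · exact div_nonneg (mul_nonneg (hw α) (hσ0 α)) hS0.le) (by
      rw [Fintype.sum_option]
      simp only [ρ, Option.elim]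
      rw [← sum_div]; ring) Y hS hε hε1 (by
      rintro (_ | α) k
      · exact le_rfl
      · exact div_nonneg (mul_nonneg (div_nonneg hS0.le (hσ0 α)) (hab0 _)) (hd0 _ _)) (by
      rintro (_ | α) k
      · exact hS0.le
      · simp only [Y, Option.elim]
        rcases (hσ0 α).eq_or_lt with h | h
        · rw [← h]; simp [hS0.le]
        · apply div_le_of_le_mul₀ (hd0 _ _) hS0.le
          rw [div_mul_eq_mul_div, div_le_iff₀ h]
          nlinarith [hσ α k.1 k.2]) (by
      intro k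
      rw [hmean]
      exact div_le_of_le_mul₀ (hd0 _ _) (by norm_num) (hQ _ _)) D hD
  have hD' : (0 : ℝ) < D := by exact_mod_cast hD0
  let c : Fin D → X → ℝ := fun β x =>
    (seq β).elim 0 fun α => (S / σ α / D) ^ (1 / p) * b α x
  refine ⟨c, fun x y => ?_⟩
  by_cases hxy : x = y
  · subst hxy
    simp [zero_rpow hp.ne']
  have hd : 0 < dist x y ^ p := rpow_pos_of_pos (dist_pos.2 hxy) p
  have hc : ∀ β : Fin D, |c β x - c β y| ^ p = Y (seq β) (x, y) * (dist x y ^ p / D) := by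
    intro β
    simp only [c, Y]
    rcases seq β with _ | α
    · simp [zero_rpow hp.ne']
    · simp only [Option.elim]
      have h0 : 0 ≤ S / σ α / D := div_nonneg (div_nonneg hS0.le (hσ0 α)) hD'.le
      rw [← mul_sub, abs_mul, abs_of_nonneg (rpow_nonneg h0 _),
        mul_rpow (rpow_nonneg h0 _) (abs_nonneg _), ← rpow_mul h0, one_div_mul_cancel hp.ne',
        rpow_one]
      field_simp
  have h1 := hseq (x, y)
  rw [hmean, ← Fin.sum_univ_eq_sum_range (fun β => Y (seq β) (x, y))] at h1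
  simp only [hc]
  rw [← sum_mul]
  have h2 : (∑ β : Fin D, Y (seq β) (x, y)) * (dist x y ^ p / D) -
      ∑ α, w α * |b α x - b α y| ^ p = ((∑ β : Fin D, Y (seq β) (x, y)) -
      D * ((∑ α, w α * |b α x - b α y| ^ p) / dist x y ^ p)) * (dist x y ^ p / D) := by
    field_simp
  rw [h2, abs_mul, abs_of_pos (div_pos hd hD')]
  calc _ ≤ ε * D * (dist x y ^ p / D) := mul_le_mul_of_nonneg_right h1 (div_pos hd hD').le
    _ = ε * dist x y ^ p := by field_simp

end Vale.Agent.P249
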