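import Vale.Agent.P249.Kernel

namespace Vale.Agent.P249

open Finset Real

section Scalar

lemma rpow_sub_rpow_le {s t θ : ℝ} (ht : 0 ≤ t) (hts : t ≤ s) (hθ : 1 ≤ θ) :
    s ^ θ - t ^ θ ≤ θ * s ^ (θ - 1) * (s - t) := by
  rcases (ht.trans hts).eq_or_lt with hs | hs
  · have : t = 0 := le_antisymm (hs ▸ hts) ht
    rw [← hs, this]; simp
  · have h1 := one_add_mul_self_le_rpow_one_add (s := t / s - 1)
      (by have : 0 ≤ t / s := by positivity
          linarith) hθ
    rw [add_sub_cancel, div_rpow ht hs.le, le_div_iff₀ (by positivity)] at h1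
    have h2 : s ^ (θ - 1) = s ^ θ / s := rpow_sub_one hs.ne' θ
    rw [h2]
    have h3 : (1 + θ * (t / s - 1)) * s ^ θ = s ^ θ - θ * (s ^ θ / s) * (s - t) := by
      field_simp; ring
    linarith

lemma sq_rpow_sub_le {s t m θ : ℝ} (hs : 0 ≤ s) (ht : 0 ≤ t) (hsm : s ≤ m) (htm : t ≤ m)
    (hθ : 1 ≤ θ) : (s ^ θ - t ^ θ) ^ 2 ≤ θ ^ 2 * m ^ (2 * θ - 2) * (s - t) ^ 2 := by
  have hm : 0 ≤ m := hs.trans hsm
  have key : ∀ s t : ℝ, 0 ≤ t → t ≤ s → s ≤ m →
      (s ^ θ - t ^ θ) ^ 2 ≤ θ ^ 2 * m ^ (2 * θ - 2) * (s - t) ^ 2 := by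
    intro s t ht hts hsm
    have h1 := rpow_sub_rpow_le ht hts hθ
    have h2 : 0 ≤ s ^ θ - t ^ θ := sub_nonneg.2 (rpow_le_rpow ht hts (by linarith))
    have h3 : s ^ (θ - 1) ≤ m ^ (θ - 1) := rpow_le_rpow (ht.trans hts) hsm (by linarith)
    have h4 : s ^ θ - t ^ θ ≤ θ * m ^ (θ - 1) * (s - t) :=
      h1.trans (by gcongr)
    refine (pow_le_pow_left₀ h2 h4 2).trans (le_of_eq ?_)
    rw [mul_pow, mul_pow, ← rpow_natCast (m ^ (θ - 1)), ← rpow_mul hm]
    congr 3
    push_cast; ring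
  rcases le_total t s with h | h
  · exact key s t ht h hsm
  · have := key t s hs h htm
    rw [← neg_sub, neg_sq, ← neg_sub t s, neg_sq]
    exact this

lemma rpow_le_sq_rpow_sub {s t θ : ℝ} (hs : 0 ≤ s) (ht : 0 ≤ t) (hθ : 1 ≤ θ) :
    |s - t| ^ (2 * θ) ≤ (s ^ θ - t ^ θ) ^ 2 := by
  have key : ∀ s t : ℝ, 0 ≤ t → t ≤ s → |s - t| ^ (2 * θ) ≤ (s ^ θ - t ^ θ) ^ 2 := by
    intro s t ht hts
    have h1 := add_rpow_le_rpow_add ht (sub_nonneg.2 hts) hθ
    rw [add_sub_cancel] at h1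
    rw [abs_of_nonneg (sub_nonneg.2 hts), mul_comm, rpow_mul (sub_nonneg.2 hts), rpow_two]
    exact pow_le_pow_left₀ (rpow_nonneg (sub_nonneg.2 hts) _) (by linarith) 2
  rcases le_total t s with h | h
  · exact key s t ht h
  · have := key t s hs h
    rw [abs_sub_comm, ← neg_sub (s ^ θ), neg_sq] at this
    exact this

/-- The two components of the Mazur map. -/
noncomputable def maz (p : ℝ) (b : Bool) (s : ℝ) : ℝ := max (if b then s else -s) 0 ^ (p / 2)

lemma maz_lower {p : ℝ} (hp : 2 ≤ p) (s t : ℝ) :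
    |s - t| ^ p / 2 ^ p ≤ ∑ b, (maz p b s - maz p b t) ^ 2 := by
  have hθ : 1 ≤ p / 2 := by linarith
  have h1 := rpow_le_sq_rpow_sub (le_max_right s 0) (le_max_right t 0) hθ
  have h2 := rpow_le_sq_rpow_sub (le_max_right (-s) 0) (le_max_right (-t) 0) hθ
  rw [mul_div_cancel₀ _ two_ne_zero] at h1 h2
  simp only [Fintype.sum_bool, maz, if_true, Bool.false_eq_true, if_false]
  rw [← div_rpow (abs_nonneg _) zero_le_two]
  have h3 : |s - t| ≤ |max s 0 - max t 0| + |max (-s) 0 - max (-t) 0| := by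
    refine le_trans (le_of_eq ?_) (abs_sub _ _)
    congr 1
    have := max_zero_sub_max_neg_zero_eq_self s
    have := max_zero_sub_max_neg_zero_eq_self t
    linarith
  rcases le_total |max s 0 - max t 0| |max (-s) 0 - max (-t) 0| with h | h
  · have := rpow_le_rpow (x := |s - t| / 2) (by positivity)
      (show _ ≤ |max (-s) 0 - max (-t) 0| by linarith) (show 0 ≤ p by linarith)
    linarith [sq_nonneg (max s 0 ^ (p / 2) - max t 0 ^ (p / 2))]
  · have := rpow_le_rpow (x := |s - t| / 2) (by positivity)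
      (show _ ≤ |max s 0 - max t 0| by linarith) (show 0 ≤ p by linarith)
    linarith [sq_nonneg (max (-s) 0 ^ (p / 2) - max (-t) 0 ^ (p / 2))]

lemma young_split {p L d m : ℝ} (hp : 2 ≤ p) (hL : 0 < L) (hd : 0 ≤ d) (hm : 0 ≤ m) :
    m ^ (p - 2) * d ^ 2 ≤ L ^ (p - 2) * d ^ p + m ^ p / L ^ 2 := by
  have h0 : ∀ u : ℝ, 0 ≤ u → u ^ p = u ^ (p - 2) * u ^ 2 := by
    intro u hu
    rw [← rpow_two, ← rpow_add' hu (by linarith)]
    congr 1; ring
  have h1 : 0 ≤ L ^ (p - 2) * d ^ p := by positivity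
  have h2 : 0 ≤ m ^ p / L ^ 2 := by positivity
  rcases le_total m (L * d) with h | h
  · have h3 : m ^ (p - 2) ≤ L ^ (p - 2) * d ^ (p - 2) := by
      rw [← mul_rpow hL.le hd]; exact rpow_le_rpow hm h (by linarith)
    have h4 := mul_le_mul_of_nonneg_right h3 (sq_nonneg d)
    rw [h0 d hd] at *
    linarith
  · have h3 : d ^ 2 ≤ m ^ 2 / L ^ 2 := by
      rw [← div_pow]
      apply pow_le_pow_left₀ hd
      rw [le_div_iff₀ hL]; linarith
    have h4 := mul_le_mul_of_nonneg_left h3 (rpow_nonneg hm (p - 2))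
    rw [h0 m hm, mul_div_assoc] at *
    linarith

lemma maz_upper {p L : ℝ} (hp : 2 ≤ p) (hL : 0 < L) (s t : ℝ) :
    ∑ b, (maz p b s - maz p b t) ^ 2 ≤
      p ^ 2 * (L ^ (p - 2) * |s - t| ^ p + (|s| ^ p + |t| ^ p) / L ^ 2) := by
  have hθ : 1 ≤ p / 2 := by linarith
  set m := max |s| |t| with hm
  have hm0 : 0 ≤ m := le_max_of_le_left (abs_nonneg _)
  have hb : ∀ u v : ℝ, |u| ≤ m → |v| ≤ m → (max u 0 ^ (p / 2) - max v 0 ^ (p / 2)) ^ 2 ≤
      (p / 2) ^ 2 * m ^ (p - 2) * (u - v) ^ 2 := by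
    intro u v hu hv
    have h1 := sq_rpow_sub_le (m := m) (le_max_right u 0) (le_max_right v 0)
      (max_le ((le_abs_self u).trans hu) hm0) (max_le ((le_abs_self v).trans hv) hm0) hθ
    rw [mul_div_cancel₀ _ two_ne_zero] at h1
    refine h1.trans (mul_le_mul_of_nonneg_left ?_ (by positivity))
    rw [sq_le_sq]
    exact abs_max_sub_max_le_abs u v 0
  have h1 := hb s t (le_max_left _ _) (le_max_right _ _)
  have h2 := hb (-s) (-t) (by rw [abs_neg]; exact le_max_left _ _)
    (by rw [abs_neg]; exact le_max_right _ _)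
  have h3 := young_split hp hL (abs_nonneg (s - t)) hm0
  have h4 : m ^ p ≤ |s| ^ p + |t| ^ p := by
    have := rpow_nonneg (abs_nonneg s) p
    have := rpow_nonneg (abs_nonneg t) p
    rcases le_total |s| |t| with h | h
    · rw [hm, max_eq_right h]; linarith
    · rw [hm, max_eq_left h]; linarith
  have h5 : m ^ p / L ^ 2 ≤ (|s| ^ p + |t| ^ p) / L ^ 2 := by gcongr
  simp only [Fintype.sum_bool, maz, if_true, Bool.false_eq_true, if_false]
  rw [sq_abs] at h3
  have h6 : (-s - -t) ^ 2 = (s - t) ^ 2 := by ring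
  rw [h6] at h2
  have h7 : 0 ≤ p ^ 2 * (m ^ (p - 2) * (s - t) ^ 2) := by positivity
  have h8 := mul_le_mul_of_nonneg_left (h3.trans (add_le_add_right h5 _)) (sq_nonneg p)
  linarith

/-- Trigonometric features. -/
noncomputable def trig (b : Bool) (s : ℝ) : ℝ := if b then cos s else sin s

lemma sum_trig (s t : ℝ) : ∑ b, (trig b s - trig b t) ^ 2 = 2 - 2 * cos (s - t) := by
  simp only [Fintype.sum_bool, trig, if_true, Bool.false_eq_true, if_false]
  rw [cos_sub]
  nlinarith [sin_sq_add_cos_sq s, sin_sq_add_cos_sq t]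

lemma snow_upper {p l D : ℝ} (hp1 : 1 ≤ p) (hp2 : p < 2) (hl : 0 < l) (K : ℕ) :
    ∑ k ∈ range K, (l * 2 ^ k) ^ p * (2 - 2 * cos (D / (l * 2 ^ k))) ≤
      (16 + 1 / (1 - 2 ^ (p - 2))) * |D| ^ p := by
  have hv : (2 : ℝ) ^ (p - 2) < 1 := rpow_lt_one_of_one_lt_of_neg one_lt_two (by linarith)
  set c : ℝ := 1 / (1 - 2 ^ (p - 2)) with hc
  have hc0 : 0 < c := by rw [hc]; apply one_div_pos.2; linarith
  have hc1 : 1 + c * 2 ^ (p - 2) = c := by
    have : (1 : ℝ) - 2 ^ (p - 2) ≠ 0 := by linarith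
    rw [hc]; field_simp; ring
  by_cases hD : D = 0
  · simp [hD, zero_rpow (show p ≠ 0 by linarith)]
  have hD0 : 0 < |D| := abs_pos.2 hD
  have h2p : (2 : ℝ) ≤ 2 ^ p := by
    simpa using rpow_le_rpow_of_exponent_le one_le_two hp1
  have h1 : ∀ K : ℕ, ∑ k ∈ range K, (if l * 2 ^ k ≤ |D| then (l * 2 ^ k) ^ p else 0) ≤
      min (l * 2 ^ K) (2 * |D|) ^ p := by
    intro K
    induction K with
    | zero => simp; positivity
    | succ K ih =>
      rw [sum_range_succ]
      have hlK : 0 < l * 2 ^ K := by positivity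
      have e : l * 2 ^ (K + 1) = 2 * (l * 2 ^ K) := by ring
      split_ifs with h
      · rw [min_eq_left (by linarith)] at ih
        rw [e, min_eq_left (by linarith), mul_rpow zero_le_two hlK.le]
        have := rpow_nonneg hlK.le p
        nlinarith
      · rw [add_zero]
        refine ih.trans (rpow_le_rpow (by positivity) ?_ (by linarith))
        exact min_le_min_right _ (by linarith)
  have h2 : ∀ K : ℕ, ∑ k ∈ range K, (if l * 2 ^ k ≤ |D| then 0 else (l * 2 ^ k) ^ (p - 2)) +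
      c * max (l * 2 ^ K) |D| ^ (p - 2) ≤ c * |D| ^ (p - 2) := by
    intro K
    induction K with
    | zero =>
      rw [sum_range_zero, zero_add]
      exact mul_le_mul_of_nonneg_left
        (rpow_le_rpow_of_nonpos hD0 (le_max_right _ _) (by linarith)) hc0.le
    | succ K ih =>
      rw [sum_range_succ]
      have hlK : 0 < l * 2 ^ K := by positivity
      have e : l * 2 ^ (K + 1) = 2 * (l * 2 ^ K) := by ring
      split_ifs with h
      · rw [max_eq_right h] at ih
        have := mul_le_mul_of_nonneg_left (rpow_le_rpow_of_nonpos hD0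
          (le_max_right (l * 2 ^ (K + 1)) |D|) (show p - 2 ≤ 0 by linarith)) hc0.le
        linarith
      · rw [max_eq_left (by linarith)] at ih
        rw [e, max_eq_left (by linarith), mul_rpow zero_le_two hlK.le]
        have : (l * 2 ^ K) ^ (p - 2) + c * (2 ^ (p - 2) * (l * 2 ^ K) ^ (p - 2)) =
            c * (l * 2 ^ K) ^ (p - 2) := by
          conv_rhs => rw [← hc1]
          ring
        linarith
  have h0 : ∀ u : ℝ, 0 < u → u ^ p = u ^ (p - 2) * u ^ 2 := by
    intro u hu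
    rw [← rpow_two, ← rpow_add hu]
    congr 1; ring
  calc _ ≤ ∑ k ∈ range K, (4 * (if l * 2 ^ k ≤ |D| then (l * 2 ^ k) ^ p else 0) +
        D ^ 2 * (if l * 2 ^ k ≤ |D| then 0 else (l * 2 ^ k) ^ (p - 2))) := by
        apply sum_le_sum
        intro k _
        have hlk : 0 < l * 2 ^ k := by positivity
        split_ifs with h
        · have := rpow_nonneg hlk.le p
          nlinarith [neg_one_le_cos (D / (l * 2 ^ k))]
        · have h3 := one_sub_sq_div_two_le_cos (x := D / (l * 2 ^ k))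
          have h4 : (l * 2 ^ k) ^ p * (D / (l * 2 ^ k)) ^ 2 = D ^ 2 * (l * 2 ^ k) ^ (p - 2) := by
            rw [h0 _ hlk]; field_simp
          have := rpow_nonneg hlk.le p
          nlinarith
    _ ≤ 4 * (4 * |D| ^ p) + D ^ 2 * (c * |D| ^ (p - 2)) := by
        rw [sum_add_distrib, ← mul_sum, ← mul_sum]
        gcongr
        · refine (h1 K).trans ((rpow_le_rpow (by positivity) (min_le_right _ _)
            (by linarith)).trans ?_)
          rw [mul_rpow zero_le_two hD0.le]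
          apply mul_le_mul_of_nonneg_right _ (by positivity)
          have := rpow_le_rpow_of_exponent_le one_le_two hp2.le
          rw [rpow_two] at this
          linarith
        · have := h2 K
          have : 0 ≤ c * max (l * 2 ^ K) |D| ^ (p - 2) := by positivity
          linarith
    _ = _ := by rw [h0 _ hD0, sq_abs]; ring

lemma snow_lower {p l D : ℝ} (hp1 : 1 ≤ p) (hp2 : p < 2) (hl : 0 < l) {K : ℕ}
    (h1 : D ≠ 0 → l ≤ |D|) (h2 : |D| < l * 2 ^ K) :
    |D| ^ p / 5 ≤ ∑ k ∈ range K, (l * 2 ^ k) ^ p * (2 - 2 * cos (D / (l * 2 ^ k))) := by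
  have hnn : ∀ k ∈ range K, 0 ≤ (l * 2 ^ k) ^ p * (2 - 2 * cos (D / (l * 2 ^ k))) :=
    fun k _ => mul_nonneg (by positivity) (by linarith [cos_le_one (D / (l * 2 ^ k))])
  by_cases hD : D = 0
  · refine le_trans (le_of_eq ?_) (sum_nonneg hnn)
    rw [hD, abs_zero, zero_rpow (by linarith), zero_div]
  obtain ⟨k, hk1, hk2⟩ := exists_nat_pow_near (x := |D| / l) (y := 2)
    (by rw [le_div_iff₀ hl, one_mul]; exact h1 hD) one_lt_two
  rw [le_div_iff₀ hl] at hk1
  rw [div_lt_iff₀ hl, pow_succ] at hk2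
  have hkK : k < K := by
    have : l * 2 ^ k < l * 2 ^ K := by linarith
    exact (pow_lt_pow_iff_right₀ one_lt_two).1 (lt_of_mul_lt_mul_left this hl.le)
  refine le_trans ?_ (single_le_sum hnn (mem_range.2 hkK))
  have hlk : 0 < l * 2 ^ k := by positivity
  have h3 : cos (D / (l * 2 ^ k)) ≤ 5 / 9 := by
    rw [← cos_abs, abs_div, abs_of_pos hlk]
    refine le_trans (cos_le_cos_of_nonneg_of_le_pi zero_le_one ?_ ?_) cos_one_le
    · rw [div_le_iff₀ hlk]; nlinarith [pi_gt_three]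
    · rw [le_div_iff₀ hlk]; linarith
  have h4 : |D| ^ p ≤ 4 * (l * 2 ^ k) ^ p := by
    refine (rpow_le_rpow (abs_nonneg _) (show |D| ≤ 2 * (l * 2 ^ k) by linarith)
      (by linarith)).trans ?_
    rw [mul_rpow zero_le_two hlk.le]
    apply mul_le_mul_of_nonneg_right _ (by positivity)
    have := rpow_le_rpow_of_exponent_le one_le_two hp2.le
    rw [rpow_two] at this
    linarith
  have := rpow_nonneg hlk.le p
  nlinarith

end Scalar

variable {X Ω : Type} [Fintype X] [Nonempty X] [MetricSpace X] [Fintype Ω]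

open Classical in
/-- The finite closed ball. -/
noncomputable def fball (x : X) (r : ℝ) : Finset X := univ.filter fun u => dist x u ≤ r

omit [Nonempty X] in
lemma mem_fball {x u : X} {r : ℝ} : u ∈ fball x r ↔ dist x u ≤ r := by simp [fball]

omit [Nonempty X] in
lemma fball_nonempty (x : X) {r : ℝ} (hr : 0 ≤ r) : (fball x r).Nonempty :=
  ⟨x, mem_fball.2 (by simpa using hr)⟩

/-- Probability kernels which overlap at scale `r`. -/
def Over (o r : ℝ) (φ : X → X → ℝ) : Prop :=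
  (∀ x u, 0 ≤ φ x u) ∧ (∀ x, ∑ u, φ x u = 1) ∧
    ∀ x y, dist x y ≤ r → o ≤ ∑ u, min (φ x u) (φ y u)

/-- Decay of a kernel. -/
def Decay (p A r : ℝ) (φ : X → X → ℝ) : Prop :=
  ∀ x u, φ x u ≤ 4 / (fball x r).card * exp (-(dist x u / r) ^ p / A)

open Classical in
/-- Tails of a kernel. -/
def Tail (L τ r : ℝ) (φ : X → X → ℝ) : Prop :=
  ∀ x, ∑ u ∈ univ.filter (fun u => ¬ dist x u ≤ L * r), φ x u ≤ τ

lemma tail_init {L τ r : ℝ} (hr : 0 < r) (hL : Fintype.card X * exp (-L) ≤ τ) :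
    ∃ φ : X → X → ℝ, Over (exp (-2)) r φ ∧ Tail L τ r φ := by
  classical
  let Z : X → ℝ := fun x => ∑ u, exp (-(dist x u / r))
  have hZ1 : ∀ x, 1 ≤ Z x := fun x => by
    have := single_le_sum (f := fun u => exp (-(dist x u / r))) (fun _ _ => (exp_pos _).le)
      (mem_univ x)
    simpa using this
  have hZ0 : ∀ x, 0 < Z x := fun x => lt_of_lt_of_le one_pos (hZ1 x)
  have hcmp : ∀ x y u : X, dist x y ≤ r → exp (-(dist x u / r)) ≤ exp 1 * exp (-(dist y u / r)) := by
    intro x y u h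
    rw [← exp_add, exp_le_exp]
    have h1 : dist y u ≤ r + dist x u := by
      have := dist_triangle y x u
      rw [dist_comm y x] at this
      linarith
    have h2 : dist y u / r ≤ 1 + dist x u / r := by
      rw [div_le_iff₀ hr, add_mul, div_mul_cancel₀ _ hr.ne']; linarith
    linarith
  have hsum : ∀ x, ∑ u, exp (-(dist x u / r)) / Z x = 1 := fun x => by
    rw [← sum_div, div_self (hZ0 x).ne']
  refine ⟨fun x u => exp (-(dist x u / r)) / Z x, ⟨fun x u => (div_pos (exp_pos _) (hZ0 x)).le,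
    hsum, fun x y hxy => ?_⟩, fun x => ?_⟩
  · calc exp (-2) = ∑ u, exp (-2) * (exp (-(dist x u / r)) / Z x) := by
          rw [← mul_sum, hsum, mul_one]
      _ ≤ _ := by
          apply sum_le_sum
          intro u _
          apply le_min
          · exact mul_le_of_le_one_left (div_pos (exp_pos _) (hZ0 x)).le
              (exp_le_one_iff.2 (by norm_num))
          · have h1 := hcmp x y u hxy
            have h2 : Z y ≤ exp 1 * Z x := by
              simp only [Z]
              rw [mul_sum]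
              exact sum_le_sum fun v _ => hcmp y x v (by rwa [dist_comm])
            rw [← mul_div_assoc, div_le_div_iff₀ (hZ0 x) (hZ0 y)]
            calc exp (-2) * exp (-(dist x u / r)) * Z y
                ≤ exp (-2) * (exp 1 * exp (-(dist y u / r))) * (exp 1 * Z x) := by
                  have := hZ0 y
                  gcongr
              _ = (exp (-2) * exp 1 * exp 1) * (exp (-(dist y u / r)) * Z x) := by ring
              _ = _ := by rw [← exp_add, ← exp_add]; norm_num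
  · refine le_trans (sum_le_card_nsmul _ _ (exp (-L)) ?_) (le_trans ?_ hL)
    · intro u hu
      have h1 := not_le.1 (mem_filter.1 hu).2
      refine (div_le_self (exp_pos _).le (hZ1 x)).trans (exp_le_exp.2 ?_)
      rw [neg_le_neg_iff, le_div_iff₀ hr]
      exact h1.le
    · rw [nsmul_eq_mul]
      gcongr
      exact card_le_univ _

omit [Nonempty X] in
lemma tail_of_decay {p A L τ r : ℝ} (hp : 0 < p) (hA : 0 < A) (hr : 0 < r) (hL0 : 0 ≤ L)
    {φ : X → X → ℝ} (h : Decay p A r φ) (hL : Fintype.card X * (4 * exp (-L ^ p / A)) ≤ τ) :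
    Tail L τ r φ := by
  classical
  intro x
  refine le_trans (sum_le_card_nsmul _ _ (4 * exp (-L ^ p / A)) ?_) (le_trans ?_ hL)
  · intro u hu
    have h1 := not_le.1 (mem_filter.1 hu).2
    refine (h x u).trans ?_
    have h2 : (1 : ℝ) ≤ (fball x r).card := by exact_mod_cast (fball_nonempty x hr.le).card_pos
    have h3 : L ^ p ≤ (dist x u / r) ^ p :=
      rpow_le_rpow hL0 (by rw [le_div_iff₀ hr]; exact h1.le) hp.le
    gcongr
    exact div_le_self (by norm_num) h2
  · rw [nsmul_eq_mul]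
    gcongr
    exact card_le_univ _

lemma good_small {p r : ℝ} (hp1 : 1 ≤ p) (hp2 : p < 2) (hr : 0 < r) (a : Ω → X → ℝ)
    (hd : ∀ x y, ∑ ω, |a ω x - a ω y| ^ p = dist x y ^ p) :
    ∃ φ : X → X → ℝ, Over (1 / 4) r φ ∧ Decay p (160 * (16 + 1 / (1 - 2 ^ (p - 2)))) r φ := by
  classical
  have hv : (2 : ℝ) ^ (p - 2) < 1 := rpow_lt_one_of_one_lt_of_neg one_lt_two (by linarith)
  obtain ⟨c, hc⟩ : ∃ c : ℝ, c = 16 + 1 / (1 - 2 ^ (p - 2)) := ⟨_, rfl⟩
  have hc0 : 0 < c := by
    have : (0 : ℝ) < 1 / (1 - 2 ^ (p - 2)) := one_div_pos.2 (by linarith)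
    linarith
  obtain ⟨b, hb⟩ := Finite.exists_le (fun k : Ω × X × X => |a k.1 k.2.1 - a k.1 k.2.2|⁻¹)
  obtain ⟨b', hb'⟩ := Finite.exists_le (fun k : Ω × X × X => |a k.1 k.2.1 - a k.1 k.2.2|)
  set l := (|b| + 1)⁻¹ with hl
  have hl0 : 0 < l := by positivity
  have hl1 : ∀ ω x y, a ω x - a ω y ≠ 0 → l ≤ |a ω x - a ω y| := by
    intro ω x y h
    rw [hl]
    apply inv_le_of_inv_le₀ (abs_pos.2 h)
    linarith [hb (ω, x, y), le_abs_self b]
  obtain ⟨K, hK⟩ := pow_unbounded_of_one_lt (b' / l) one_lt_two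
  have hl2 : ∀ ω x y, |a ω x - a ω y| < l * 2 ^ K := by
    intro ω x y
    rw [div_lt_iff₀ hl0] at hK
    linarith [hb' (ω, x, y)]
  have hσ : 0 < c * r ^ p := by positivity
  let Φ : X → Ω × Fin K × Bool → ℝ := fun x i =>
    √((l * 2 ^ (i.2.1 : ℕ)) ^ p / (c * r ^ p)) * trig i.2.2 (a i.1 x / (l * 2 ^ (i.2.1 : ℕ)))
  have hq : ∀ x y, ∑ i, (Φ x i - Φ y i) ^ 2 = (∑ ω, ∑ k ∈ range K, (l * 2 ^ k) ^ p *
      (2 - 2 * cos ((a ω x - a ω y) / (l * 2 ^ k)))) / (c * r ^ p) := by
    intro x y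
    rw [Fintype.sum_prod_type, sum_div]
    apply sum_congr rfl
    intro ω _
    rw [Fintype.sum_prod_type, sum_div, ← Fin.sum_univ_eq_sum_range (fun k => (l * 2 ^ k) ^ p *
      (2 - 2 * cos ((a ω x - a ω y) / (l * 2 ^ k))) / (c * r ^ p))]
    apply sum_congr rfl
    intro k _
    simp only [Φ, ← mul_sub, mul_pow]
    rw [← mul_sum, sum_trig, sq_sqrt (by positivity), sub_div (a ω x)]
    ring
  have hup : ∀ x y, dist x y ≤ r → ∑ i, (Φ x i - Φ y i) ^ 2 ≤ 1 := by
    intro x y hxy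
    rw [hq, div_le_one hσ]
    refine (sum_le_sum fun ω _ => snow_upper hp1 hp2 hl0 K).trans ?_
    rw [← mul_sum, hd, ← hc]
    gcongr
  obtain ⟨φ, h1, h2, h3, h4⟩ := kernel Φ
  refine ⟨φ, ⟨h1, h2, fun x y hxy => h3 x y (hup x y hxy)⟩, fun x u => ?_⟩
  refine (h4 x u (fball x r) (fball_nonempty x hr.le)
    fun v hv => hup x v (mem_fball.1 hv)).trans ?_
  have h5 : dist x u ^ p / 5 / (c * r ^ p) ≤ ∑ i, (Φ x i - Φ u i) ^ 2 := by
    rw [hq, ← hd, sum_div]
    gcongr with ω
    exact snow_lower hp1 hp2 hl0 (hl1 ω x u) (hl2 ω x u)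
  have h6 : (dist x u / r) ^ p / (160 * c) = dist x u ^ p / 5 / (c * r ^ p) / 32 := by
    rw [div_rpow dist_nonneg hr.le]; field_simp; ring
  rw [← hc, neg_div, neg_div, h6]
  gcongr
  norm_num

lemma good_of_tail {p r o L τ : ℝ} (hp : 2 ≤ p) (hr : 0 < r) (hL : 1 ≤ L) (a : Ω → X → ℝ)
    (hd : ∀ x y, ∑ ω, |a ω x - a ω y| ^ p = dist x y ^ p) {ρ : X → X → ℝ} (hρ : Over o r ρ)
    (hρ' : Tail L τ r ρ) (hτ1 : τ ≤ o / 2) (hτ2 : τ ≤ 1 / Fintype.card X) :
    ∃ φ : X → X → ℝ, Over (o / 8) r φ ∧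
      Decay p (32 * 2 ^ p * (p ^ 2 * (1 + 2 * 2 ^ p)) * L ^ (p - 2)) r φ := by
  classical
  have hL0 : 0 < L := by linarith
  have hp0 : 0 < p := by linarith
  obtain ⟨c, hc⟩ : ∃ c : ℝ, c = p ^ 2 * (1 + 2 * 2 ^ p) := ⟨_, rfl⟩
  have hc0 : 0 < c := by rw [hc]; positivity
  have hσ : 0 < c * L ^ (p - 2) * r ^ p := by positivity
  let Φ : X → X → Ω × Bool → ℝ := fun z x i =>
    maz p i.2 (a i.1 x - a i.1 z) / √(c * L ^ (p - 2) * r ^ p)
  have hq : ∀ z x y, ∑ i, (Φ z x i - Φ z y i) ^ 2 = (∑ ω, ∑ b,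
      (maz p b (a ω x - a ω z) - maz p b (a ω y - a ω z)) ^ 2) / (c * L ^ (p - 2) * r ^ p) := by
    intro z x y
    rw [Fintype.sum_prod_type, sum_div]
    apply sum_congr rfl
    intro ω _
    rw [sum_div]
    apply sum_congr rfl
    intro b _
    simp only [Φ]
    rw [← sub_div, div_pow, sq_sqrt hσ.le]
  have hup : ∀ z x y, dist x z ≤ L * r → dist x y ≤ r → ∑ i, (Φ z x i - Φ z y i) ^ 2 ≤ 1 := by
    intro z x y hxz hxy
    rw [hq, div_le_one hσ]
    refine (sum_le_sum fun ω _ => maz_upper hp hL0 _ _).trans ?_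
    simp only [sub_sub_sub_cancel_right]
    rw [← mul_sum, sum_add_distrib, ← mul_sum, ← sum_div, sum_add_distrib, hd, hd, hd, hc]
    have h1 : dist x z ≤ 2 * L * r := by nlinarith
    have h2 : dist y z ≤ 2 * L * r := by
      have := dist_triangle y x z
      rw [dist_comm y x] at this
      nlinarith
    have h3 : (2 * L * r) ^ p = 2 ^ p * (L ^ (p - 2) * L ^ 2) * r ^ p := by
      rw [mul_rpow (by positivity) hr.le, mul_rpow zero_le_two hL0.le, ← rpow_two,
        ← rpow_add hL0]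
      congr 3; ring
    calc _ ≤ p ^ 2 * (L ^ (p - 2) * r ^ p + ((2 * L * r) ^ p + (2 * L * r) ^ p) / L ^ 2) := by
          gcongr
      _ = _ := by rw [h3]; field_simp; ring
  have hlow : ∀ z x u, (dist x u / r) ^ p / (32 * 2 ^ p * c * L ^ (p - 2)) ≤
      (∑ i, (Φ z x i - Φ z u i) ^ 2) / 32 := by
    intro z x u
    have h5 : dist x u ^ p / 2 ^ p / (c * L ^ (p - 2) * r ^ p) ≤
        ∑ i, (Φ z x i - Φ z u i) ^ 2 := by
      rw [hq, ← hd, sum_div]
      gcongr with ω
      refine le_trans (le_of_eq ?_) (maz_lower hp _ _)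
      rw [sub_sub_sub_cancel_right]
    refine le_trans (le_of_eq ?_) (div_le_div_of_nonneg_right h5 (by norm_num))
    rw [div_rpow dist_nonneg hr.le]; field_simp
  choose ψ h1 h2 h3 h4 using fun z => kernel (Φ z)
  obtain ⟨hρ0, hρ1, hρ2⟩ := hρ
  refine ⟨fun x u => ∑ z, ρ x z * ψ z x u, ⟨fun x u => sum_nonneg fun z _ =>
    mul_nonneg (hρ0 x z) (h1 z x u), fun x => ?_, fun x y hxy => ?_⟩, fun x u => ?_⟩
  · rw [sum_comm]
    simp only [← mul_sum, h2, mul_one, hρ1]
  · have h5 : o / 2 ≤ ∑ z ∈ univ.filter (fun z => dist x z ≤ L * r), min (ρ x z) (ρ y z) := by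
      have h6 := hρ2 x y hxy
      rw [← sum_filter_add_sum_filter_not univ (fun z => dist x z ≤ L * r)] at h6
      have h7 : ∑ z ∈ univ.filter (fun z => ¬ dist x z ≤ L * r), min (ρ x z) (ρ y z) ≤ τ :=
        (sum_le_sum fun z _ => min_le_left _ _).trans (hρ' x)
      linarith
    have hm0 : ∀ z, 0 ≤ min (ρ x z) (ρ y z) := fun z => le_min (hρ0 _ _) (hρ0 _ _)
    have hm1 : ∀ z u, 0 ≤ min (ψ z x u) (ψ z y u) := fun z u => le_min (h1 _ _ _) (h1 _ _ _)
    calc o / 8 ≤ ∑ z ∈ univ.filter (fun z => dist x z ≤ L * r), min (ρ x z) (ρ y z) * (1 / 4) := by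
          rw [← sum_mul]; linarith
      _ ≤ ∑ z ∈ univ.filter (fun z => dist x z ≤ L * r),
            min (ρ x z) (ρ y z) * ∑ u, min (ψ z x u) (ψ z y u) :=
          sum_le_sum fun z hz => mul_le_mul_of_nonneg_left
            (h3 z x y (hup z x y (mem_filter.1 hz).2 hxy)) (hm0 z)
      _ ≤ ∑ z, min (ρ x z) (ρ y z) * ∑ u, min (ψ z x u) (ψ z y u) :=
          sum_le_sum_of_subset_of_nonneg (filter_subset _ _) fun z _ _ =>
            mul_nonneg (hm0 z) (sum_nonneg fun u _ => hm1 z u)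
      _ = ∑ u, ∑ z, min (ρ x z) (ρ y z) * min (ψ z x u) (ψ z y u) := by
          rw [sum_comm]; simp only [mul_sum]
      _ ≤ _ := by
          apply sum_le_sum
          intro u _
          apply le_min
          · exact sum_le_sum fun z _ =>
              mul_le_mul (min_le_left _ _) (min_le_left _ _) (hm1 z u) (hρ0 _ _)
          · exact sum_le_sum fun z _ =>
              mul_le_mul (min_le_right _ _) (min_le_right _ _) (hm1 z u) (hρ0 _ _)
  · rw [← hc]
    set E := exp (-(dist x u / r) ^ p / (32 * 2 ^ p * c * L ^ (p - 2))) with hE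
    have hE0 : 0 < E := exp_pos _
    have hEz : ∀ z, exp (-(∑ i, (Φ z x i - Φ z u i) ^ 2) / 32) ≤ E := by
      intro z
      rw [hE, exp_le_exp, neg_div, neg_div, neg_le_neg_iff]
      exact hlow z x u
    have hN0 : (0 : ℝ) < (fball x r).card := by exact_mod_cast (fball_nonempty x hr.le).card_pos
    have hNn : ((fball x r).card : ℝ) ≤ Fintype.card X := by exact_mod_cast card_le_univ _
    beta_reduce
    rw [← sum_filter_add_sum_filter_not univ (fun z => dist x z ≤ L * r)]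
    have h5 : ∑ z ∈ univ.filter (fun z => dist x z ≤ L * r), ρ x z * ψ z x u ≤
        2 / (fball x r).card * E := by
      calc _ ≤ ∑ z ∈ univ.filter (fun z => dist x z ≤ L * r),
            ρ x z * (2 / (fball x r).card * E) := by
            apply sum_le_sum
            intro z hz
            apply mul_le_mul_of_nonneg_left _ (hρ0 _ _)
            refine (h4 z x u (fball x r) (fball_nonempty x hr.le)
              fun v hv => hup z x v (mem_filter.1 hz).2 (mem_fball.1 hv)).trans ?_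
            exact mul_le_mul_of_nonneg_left (hEz z) (by positivity)
        _ ≤ ∑ z, ρ x z * (2 / (fball x r).card * E) :=
            sum_le_sum_of_subset_of_nonneg (filter_subset _ _) fun z _ _ =>
              mul_nonneg (hρ0 _ _) (by positivity)
        _ = _ := by rw [← sum_mul, hρ1, one_mul]
    have h6 : ∑ z ∈ univ.filter (fun z => ¬ dist x z ≤ L * r), ρ x z * ψ z x u ≤
        2 / (fball x r).card * E := by
      calc _ ≤ ∑ z ∈ univ.filter (fun z => ¬ dist x z ≤ L * r), ρ x z * (2 * E) := by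
            apply sum_le_sum
            intro z _
            apply mul_le_mul_of_nonneg_left _ (hρ0 _ _)
            refine (h4 z x u {x} (singleton_nonempty x) (by simp)).trans ?_
            rw [card_singleton, Nat.cast_one, div_one]
            exact mul_le_mul_of_nonneg_left (hEz z) (by positivity)
        _ ≤ 1 / (fball x r).card * (2 * E) := by
            rw [← sum_mul]
            apply mul_le_mul_of_nonneg_right _ (by positivity)
            exact ((hρ' x).trans hτ2).trans (one_div_le_one_div_of_le hN0 hNn)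
        _ = _ := by ring
    calc _ ≤ 2 / (fball x r).card * E + 2 / (fball x r).card * E := add_le_add h5 h6
      _ = _ := by ring

end Vale.Agent.P249
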